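import Vale.Agent.P134.H370.Second
import Vale.Agent.P134.H891.Height

set_option linter.all false

open MeasureTheory Filter Topology

namespace Vale.Agent.P134.H370

open Vale.Agent.P134.H891

variable {n : ℕ} {u v χ w : (Fin n → ℝ) → ℝ} {p q : Fin n} {a R H : ℝ}

/-! ### Monotonicity with the convex weight `(x_p + c)²` and the height bound (2.3) -/

/-- The weight. -/
def qw (p : Fin n) (c : ℝ) (x : Fin n → ℝ) : ℝ := (x p + c) ^ 2

lemma qw_contDiff (p : Fin n) (c : ℝ) : ContDiff ℝ 1 (qw p c : (Fin n → ℝ) → ℝ) :=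
  ((contDiff_apply ℝ ℝ p).add contDiff_const).pow 2

lemma lw_contDiff (p : Fin n) (c : ℝ) : ContDiff ℝ 1 (fun x : Fin n → ℝ => 2 * (x p + c)) :=
  contDiff_const.mul ((contDiff_apply ℝ ℝ p).add contDiff_const)

lemma qw_nonneg (p : Fin n) (c : ℝ) (x : Fin n → ℝ) : 0 ≤ qw p c x := sq_nonneg _

lemma pd_qw (p j : Fin n) (c : ℝ) (x : Fin n → ℝ) :
    pd j (qw p c) x = if p = j then 2 * (x p + c) else 0 := by
  have h := pd_sq_coord p j (-c) x
  simp only [sub_neg_eq_add] at h
  exact h

lemma pd_lw (p j : Fin n) (c : ℝ) (x : Fin n → ℝ) :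
    pd j (fun x : Fin n → ℝ => 2 * (x p + c)) x = if p = j then 2 else 0 := by
  have d1 : DifferentiableAt ℝ (fun y : Fin n → ℝ => y p + c) x := by fun_prop
  rw [pd_mul (f := fun _ => (2:ℝ)) (g := fun y : Fin n → ℝ => y p + c) (by fun_prop) d1, pd_const,
    pd_add (by fun_prop) (by fun_prop), pd_coord, pd_const]
  split_ifs <;> ring

lemma en_sub_nonneg (hu : Sol u) (p : Fin n) (x : Fin n → ℝ) : 0 ≤ en u x - pd p u x ^ 2 := by
  have h1 := hu.defi_nonneg x
  have h2 := gr_eq u x
  have h3 : pd p u x ^ 2 ≤ gr u x := by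
    unfold gr
    exact Finset.single_le_sum (fun j _ => sq_nonneg (pd j u x)) (Finset.mem_univ p)
  linarith

/-- The identity with the weight `(x_p + c)²`, as an inequality. -/
lemma ident_qw (hu : Sol u) {r : ℝ} (hr : 0 < r) (p : Fin n) (c : ℝ) :
    ∫ x, qw p c x * ((((n : ℝ) - 1) * en u x + defi u x / 2) * ph r x)
      ≤ ∫ x, qw p c x * (4 * mm r x / r ^ 2 * (esq x * en u x - rd u x ^ 2)) := by
  have cph : ContDiff ℝ 1 (ph r : (Fin n → ℝ) → ℝ) := ph_contDiff r
  have sph : HasCompactSupport (ph r : (Fin n → ℝ) → ℝ) := ph_hasCompactSupport hr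
  have smm : HasCompactSupport (mm r : (Fin n → ℝ) → ℝ) := mm_hasCompactSupport hr
  have cmm : Continuous (mm r : (Fin n → ℝ) → ℝ) := continuous_mm r
  have cen : Continuous (en u) := (en_contDiff hu.c2).continuous
  have cpd : ∀ j, Continuous (pd j u) := fun j => (contDiff_pd_one hu.c2).continuous
  have cx : ∀ q : Fin n, ContDiff ℝ 1 (fun x : Fin n → ℝ => x q) := fun q => contDiff_apply ℝ ℝ q
  have cq : ContDiff ℝ 1 (qw p c : (Fin n → ℝ) → ℝ) := qw_contDiff p c
  set X : Fin n → (Fin n → ℝ) → ℝ := fun q x => qw p c x * (ph r x * x q) with hX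
  have cX : ∀ q, ContDiff ℝ 1 (X q) := fun q => cq.mul (cph.mul (cx q))
  have sX : ∀ q, HasCompactSupport (X q) := fun q => sph.mul_right.mul_left
  have pX : ∀ q j x, pd j (X q) x = (if q = j then qw p c x * ph r x else 0)
      - qw p c x * (x q * x j * (4 * mm r x / r ^ 2))
      + (if p = j then 2 * (x p + c) * (ph r x * x q) else 0) := by
    intro q j x
    have d1 : DifferentiableAt ℝ (ph r : (Fin n → ℝ) → ℝ) x := cph.differentiable (by norm_num) x
    have d2 : DifferentiableAt ℝ (fun x : Fin n → ℝ => x q) x := (cx q).differentiable (by norm_num) x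
    have d3 : DifferentiableAt ℝ (qw p c : (Fin n → ℝ) → ℝ) x := cq.differentiable (by norm_num) x
    show pd j (fun x => qw p c x * (ph r x * x q)) x = _
    have d4 : DifferentiableAt ℝ (fun x : Fin n → ℝ => ph r x * x q) x := d1.mul d2
    rw [pd_mul d3 d4, pd_mul d1 d2, pd_ph, pd_coord, pd_qw]
    split_ifs <;> ring
  have h := Finset.sum_congr (s₁ := (Finset.univ : Finset (Fin n))) rfl
    (fun q (_ : q ∈ Finset.univ) => stress hu q (cX q) (sX q))
  have i1 : ∀ q ∈ (Finset.univ : Finset (Fin n)), Integrable (fun x => en u x * pd q (X q) x) :=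
    fun q _ => (cen.mul (continuous_pd (cX q))).integrable_of_hasCompactSupport
      (hasCompactSupport_pd (sX q)).mul_left
  have i2 : ∀ q ∈ (Finset.univ : Finset (Fin n)),
      Integrable (fun x => pd q u x * ∑ j, pd j u x * pd j (X q) x) := by
    intro q _
    have : (fun x => pd q u x * ∑ j, pd j u x * pd j (X q) x)
        = fun x => ∑ j, (pd q u x * pd j u x) * pd j (X q) x := by
      ext x; rw [Finset.mul_sum]
      apply Finset.sum_congr rfl; intro j _; ring
    rw [this]
    exact integrable_sum_mul (fun j => (cpd q).mul (cpd j))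
      (fun j => continuous_pd (cX q)) (fun j => hasCompactSupport_pd (sX q))
  rw [← integral_finsetSum _ i1, ← integral_finsetSum _ i2] at h
  have e1 : ∀ x, ∑ q, en u x * pd q (X q) x = qw p c x * (en u x * (n * ph r x))
      - qw p c x * (4 * mm r x / r ^ 2 * (esq x * en u x))
      + en u x * (2 * (x p + c) * (x p * ph r x)) := by
    intro x
    rw [← Finset.mul_sum]
    simp_rw [pX]
    simp only [if_true]
    rw [Finset.sum_add_distrib, Finset.sum_sub_distrib,
      Finset.sum_const, Finset.card_univ, Fintype.card_fin, nsmul_eq_mul, Finset.sum_ite_eq,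
      if_pos (Finset.mem_univ _)]
    have : ∑ i, qw p c x * (x i * x i * (4 * mm r x / r ^ 2))
        = qw p c x * (esq x * (4 * mm r x / r ^ 2)) := by
      rw [← Finset.mul_sum, ← Finset.sum_mul]
      congr 2
      unfold esq; exact Finset.sum_congr rfl fun i _ => by ring
    rw [this]; ring
  have e2 : ∀ x, ∑ q, pd q u x * ∑ j, pd j u x * pd j (X q) x
      = qw p c x * (gr u x * ph r x) - qw p c x * (4 * mm r x / r ^ 2 * rd u x ^ 2)
        + 2 * (x p + c) * (ph r x * (pd p u x * rd u x)) := by
    intro x
    have h1 : ∀ q, ∑ j, pd j u x * pd j (X q) x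
        = qw p c x * (pd q u x * ph r x) - qw p c x * (x q * (4 * mm r x / r ^ 2) * rd u x)
          + 2 * (x p + c) * (ph r x * (x q * pd p u x)) := by
      intro q
      simp_rw [pX]
      have h2 : ∀ j, pd j u x * ((if q = j then qw p c x * ph r x else 0)
            - qw p c x * (x q * x j * (4 * mm r x / r ^ 2))
            + (if p = j then 2 * (x p + c) * (ph r x * x q) else 0))
          = (if q = j then qw p c x * (pd j u x * ph r x) else 0)
            - qw p c x * (x q * (4 * mm r x / r ^ 2)) * (x j * pd j u x)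
            + (if p = j then 2 * (x p + c) * (ph r x * (x q * pd j u x)) else 0) := by
        intro j; split_ifs <;> ring
      simp_rw [h2]
      rw [Finset.sum_add_distrib, Finset.sum_sub_distrib, Finset.sum_ite_eq,
        if_pos (Finset.mem_univ _), Finset.sum_ite_eq, if_pos (Finset.mem_univ _),
        ← Finset.mul_sum]
      unfold rd
      ring
    simp_rw [h1]
    have h3 : ∀ q, pd q u x * (qw p c x * (pd q u x * ph r x)
          - qw p c x * (x q * (4 * mm r x / r ^ 2) * rd u x)
          + 2 * (x p + c) * (ph r x * (x q * pd p u x)))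
        = qw p c x * ph r x * pd q u x ^ 2
          - qw p c x * (4 * mm r x / r ^ 2) * rd u x * (x q * pd q u x)
          + 2 * (x p + c) * ph r x * pd p u x * (x q * pd q u x) := by
      intro q; ring
    simp_rw [h3]
    rw [Finset.sum_add_distrib, Finset.sum_sub_distrib, ← Finset.mul_sum, ← Finset.mul_sum,
      ← Finset.mul_sum]
    unfold gr
    rw [show ∑ i, x i * pd i u x = rd u x from rfl]
    ring
  simp_rw [e1, e2] at h
  -- the second identity
  have cY : ContDiff ℝ 1 (fun x : Fin n → ℝ => 2 * (x p + c) * ps r x) :=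
    (lw_contDiff p c).mul (ps_contDiff r)
  have sY : HasCompactSupport (fun x : Fin n → ℝ => 2 * (x p + c) * ps r x) :=
    (ps_hasCompactSupport hr).mul_left
  have pY : ∀ j (x : Fin n → ℝ), pd j (fun x : Fin n → ℝ => 2 * (x p + c) * ps r x) x
      = (if p = j then 2 * ps r x else 0) - 2 * (x p + c) * (x j * ph r x) := by
    intro j x
    rw [pd_mul (f := fun x : Fin n → ℝ => 2 * (x p + c)) (g := ps r)
      ((lw_contDiff p c).differentiable (by norm_num) x)
      ((ps_contDiff r).differentiable (by norm_num) x), pd_lw, pd_ps hr]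
    split_ifs <;> ring
  have h' := stress hu p cY sY
  have e3 : ∀ x, pd p u x * ∑ j, pd j u x * pd j (fun x : Fin n → ℝ => 2 * (x p + c) * ps r x) x
      = 2 * (ps r x * pd p u x ^ 2) - 2 * (x p + c) * (ph r x * (pd p u x * rd u x)) := by
    intro x
    simp_rw [pY]
    have : ∀ j, pd j u x * ((if p = j then 2 * ps r x else 0) - 2 * (x p + c) * (x j * ph r x))
        = (if p = j then 2 * ps r x * pd j u x else 0)
          - 2 * (x p + c) * ph r x * (x j * pd j u x) := by
      intro j; split_ifs <;> ring
    simp_rw [this]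
    rw [Finset.sum_sub_distrib, Finset.sum_ite_eq, if_pos (Finset.mem_univ _), ← Finset.mul_sum,
      show ∑ i, x i * pd i u x = rd u x from rfl]
    ring
  have e4 : ∀ x : Fin n → ℝ, en u x * pd p (fun x : Fin n → ℝ => 2 * (x p + c) * ps r x) x
      = 2 * (ps r x * en u x) - en u x * (2 * (x p + c) * (x p * ph r x)) := by
    intro x
    rw [pY, if_pos rfl]; ring
  simp_rw [e3, e4] at h'
  have cd : Continuous (defi u) := hu.defi_continuous
  have crd : Continuous (rd u) := rd_continuous hu.c2
  have cgr : Continuous (gr u) := gr_continuous hu.c2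
  have cxp : Continuous (qw p c : (Fin n → ℝ) → ℝ) := cq.continuous
  have clw : Continuous (fun x : Fin n → ℝ => 2 * (x p + c)) := (lw_contDiff p c).continuous
  have cps : Continuous (ps r : (Fin n → ℝ) → ℝ) := (ps_contDiff r).continuous
  have sps : HasCompactSupport (ps r : (Fin n → ℝ) → ℝ) := ps_hasCompactSupport hr
  have s4 : HasCompactSupport (fun x : Fin n → ℝ => 4 * mm r x / r ^ 2) :=
    HasCompactSupport.comp_left smm (g := fun t => 4 * t / r ^ 2) (by simp)
  have c4 : Continuous (fun x : Fin n → ℝ => 4 * mm r x / r ^ 2) :=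
    (continuous_const.mul cmm).div_const _
  have j1 : Integrable (fun x => qw p c x * (en u x * (n * ph r x))) :=
    (cxp.mul (cen.mul (continuous_const.mul cph.continuous))).integrable_of_hasCompactSupport
      (sph.mul_left.mul_left.mul_left)
  have j2 : Integrable (fun x => qw p c x * (4 * mm r x / r ^ 2 * (esq x * en u x))) :=
    (cxp.mul (c4.mul (continuous_esq.mul cen))).integrable_of_hasCompactSupport
      s4.mul_right.mul_left
  have j3 : Integrable (fun x => en u x * (2 * (x p + c) * (x p * ph r x))) :=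
    (cen.mul (clw.mul ((continuous_apply p).mul cph.continuous))).integrable_of_hasCompactSupport
      (sph.mul_left.mul_left.mul_left)
  have j4 : Integrable (fun x => qw p c x * (gr u x * ph r x)) :=
    (cxp.mul (cgr.mul cph.continuous)).integrable_of_hasCompactSupport sph.mul_left.mul_left
  have j5 : Integrable (fun x => qw p c x * (4 * mm r x / r ^ 2 * rd u x ^ 2)) :=
    (cxp.mul (c4.mul (crd.pow 2))).integrable_of_hasCompactSupport s4.mul_right.mul_left
  have j6 : Integrable (fun x => 2 * (x p + c) * (ph r x * (pd p u x * rd u x))) :=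
    (clw.mul (cph.continuous.mul ((cpd p).mul crd))).integrable_of_hasCompactSupport
      sph.mul_right.mul_left
  have j7 : Integrable (fun x => 2 * (ps r x * pd p u x ^ 2)) :=
    (continuous_const.mul (cps.mul ((cpd p).pow 2))).integrable_of_hasCompactSupport
      sps.mul_right.mul_left
  have j8 : Integrable (fun x => 2 * (ps r x * en u x)) :=
    (continuous_const.mul (cps.mul cen)).integrable_of_hasCompactSupport sps.mul_right.mul_left
  have a1 : ∫ x, (qw p c x * (en u x * (n * ph r x))
      - qw p c x * (4 * mm r x / r ^ 2 * (esq x * en u x))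
      + en u x * (2 * (x p + c) * (x p * ph r x)))
      = (∫ x, qw p c x * (en u x * (n * ph r x)))
        - (∫ x, qw p c x * (4 * mm r x / r ^ 2 * (esq x * en u x)))
        + ∫ x, en u x * (2 * (x p + c) * (x p * ph r x)) := by
    have e := integral_add (j1.sub j2) j3
    simp only [Pi.sub_apply] at e
    rw [e, integral_sub j1 j2]
  have a2 : ∫ x, (qw p c x * (gr u x * ph r x) - qw p c x * (4 * mm r x / r ^ 2 * rd u x ^ 2)
        + 2 * (x p + c) * (ph r x * (pd p u x * rd u x)))
      = (∫ x, qw p c x * (gr u x * ph r x)) - (∫ x, qw p c x * (4 * mm r x / r ^ 2 * rd u x ^ 2))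
        + ∫ x, 2 * (x p + c) * (ph r x * (pd p u x * rd u x)) := by
    have e := integral_add (j4.sub j5) j6
    simp only [Pi.sub_apply] at e
    rw [e, integral_sub j4 j5]
  rw [a1, a2] at h
  rw [integral_sub j8 j3, integral_sub j7 j6] at h'
  have k1 : ∫ x, qw p c x * ((((n : ℝ) - 1) * en u x + defi u x / 2) * ph r x)
      = (∫ x, qw p c x * (en u x * (n * ph r x))) - ∫ x, qw p c x * (gr u x * ph r x) := by
    rw [← integral_sub j1 j4]
    congr 1; ext x; rw [gr_eq]; ring
  have k2 : ∫ x, qw p c x * (4 * mm r x / r ^ 2 * (esq x * en u x - rd u x ^ 2))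
      = (∫ x, qw p c x * (4 * mm r x / r ^ 2 * (esq x * en u x)))
        - ∫ x, qw p c x * (4 * mm r x / r ^ 2 * rd u x ^ 2) := by
    rw [← integral_sub j2 j5]
    congr 1; ext x; ring
  have k3 : ∫ x, 2 * (ps r x * pd p u x ^ 2) ≤ ∫ x, 2 * (ps r x * en u x) := by
    apply integral_mono j7 j8
    intro x
    have h1 := en_sub_nonneg hu p x
    have h2 : 0 ≤ ps r x := by
      unfold ps
      have := mm_nonneg r x
      positivity
    simp only []
    nlinarith [mul_nonneg h2 h1]
  rw [k1, k2]
  linarith

/-- Monotonicity of the second moment of the energy. -/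
lemma TT_qw_mono (hu : Sol u) (p : Fin n) (c : ℝ) : MonotoneOn (TT (qw p c) u) (Set.Ioi 0) := by
  have hn : 1 ≤ n := by have := p.2; omega
  obtain ⟨m, rfl⟩ : ∃ m, n = m + 1 := ⟨n - 1, by omega⟩
  have cen : Continuous (en u) := (en_contDiff hu.c2).continuous
  have cq : Continuous (qw p c) := (qw_contDiff p c).continuous
  set D : ℝ → ℝ := fun r => ∫ x, qw p c x * (en u x * (4 * mm r x * esq x / r ^ 3)) with hD
  have hd : ∀ r, 0 < r → HasDerivAt (II (qw p c) u) (D r) r := fun r hr =>
    hasDerivAt_II_aux hu cq hr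
  have hge : ∀ r, 0 < r → (m : ℝ) * II (qw p c) u r ≤ D r * r := by
    intro r hr
    have s4 : HasCompactSupport (fun x : Fin (m + 1) → ℝ => 4 * mm r x / r ^ 2) :=
      HasCompactSupport.comp_left (mm_hasCompactSupport hr) (g := fun t => 4 * t / r ^ 2) (by simp)
    have c4 : Continuous (fun x : Fin (m + 1) → ℝ => 4 * mm r x / r ^ 2) :=
      (continuous_const.mul (continuous_mm r)).div_const _
    have j1 : Integrable (fun x => qw p c x * (4 * mm r x / r ^ 2 * (esq x * en u x - rd u x ^ 2))) :=
      (cq.mul (c4.mul ((continuous_esq.mul cen).sub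
        ((rd_continuous hu.c2).pow 2)))).integrable_of_hasCompactSupport s4.mul_right.mul_left
    have j2 : Integrable (fun x => qw p c x * (4 * mm r x / r ^ 2 * rd u x ^ 2)) :=
      (cq.mul (c4.mul ((rd_continuous hu.c2).pow 2))).integrable_of_hasCompactSupport
        s4.mul_right.mul_left
    have e1 : D r * r
        = (∫ x, qw p c x * (4 * mm r x / r ^ 2 * (esq x * en u x - rd u x ^ 2)))
          + ∫ x, qw p c x * (4 * mm r x / r ^ 2 * rd u x ^ 2) := by
      rw [hD, ← integral_add j1 j2, ← integral_mul_const]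
      congr 1; ext x
      field_simp
      ring
    have h1 := ident_qw hu hr p c
    have h2 : 0 ≤ ∫ x, qw p c x * (4 * mm r x / r ^ 2 * rd u x ^ 2) := by
      apply integral_nonneg
      intro x
      have := qw_nonneg p c x
      have := mm_nonneg r x
      simp only [Pi.zero_apply]
      positivity
    have j5 : Integrable (fun x => qw p c x * ((((m + 1 : ℕ) : ℝ) - 1) * en u x + defi u x / 2) * ph r x) := by
      have : Integrable (fun x => qw p c x * (((((m + 1 : ℕ) : ℝ) - 1) * en u x + defi u x / 2) * ph r x)) :=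
        (cq.mul (((continuous_const.mul cen).add (hu.defi_continuous.div_const _)).mul
          (ph_contDiff r).continuous)).integrable_of_hasCompactSupport
          (ph_hasCompactSupport hr).mul_left.mul_left
      refine this.congr (Eventually.of_forall fun x => ?_)
      simp only []; ring
    have h3 : (m : ℝ) * II (qw p c) u r
        ≤ ∫ x, qw p c x * (((((m + 1 : ℕ) : ℝ) - 1) * en u x + defi u x / 2) * ph r x) := by
      unfold II
      rw [← integral_const_mul]
      apply integral_mono ((II_integrable hu cq hr).const_mul _)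
      · refine j5.congr (Eventually.of_forall fun x => ?_)
        simp only []; ring
      · intro x
        have h4 := qw_nonneg p c x
        have h5 := ph_nonneg r x
        have h6 := hu.defi_nonneg x
        have h7 : 0 ≤ qw p c x * ((defi u x / 2) * ph r x) := by positivity
        simp only [Nat.cast_add, Nat.cast_one, add_sub_cancel_right]
        nlinarith
    linarith
  have hT : ∀ r, 0 < r → HasDerivAt (TT (qw p c) u)
      ((D r * r ^ m - II (qw p c) u r * (m * r ^ (m - 1))) / (r ^ m) ^ 2) r := by
    intro r hr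
    exact (hd r hr).div (hasDerivAt_pow m r) (by positivity)
  apply monotoneOn_of_deriv_nonneg (convex_Ioi 0)
  · exact fun r hr => (hT r hr).continuousAt.continuousWithinAt
  · intro r hr
    rw [interior_Ioi] at hr
    exact (hT r hr).differentiableAt.differentiableWithinAt
  · intro r hr
    rw [interior_Ioi] at hr
    have hr' : 0 < r := hr
    rw [(hT r hr).deriv]
    apply div_nonneg _ (by positivity)
    have h1 := hge r hr'
    rcases m with _ | k
    · simp only [Nat.cast_zero, zero_mul] at h1
      simp only [pow_zero, mul_one, Nat.cast_zero, zero_mul, mul_zero, sub_zero]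
      by_contra hcon
      push Not at hcon
      nlinarith
    · simp only [Nat.add_sub_cancel]
      have h2 : D r * r ^ (k + 1) = (D r * r) * r ^ k := by ring
      rw [h2]
      have h3 := mul_le_mul_of_nonneg_right h1 (by positivity : 0 ≤ r ^ k)
      nlinarith

/-- Second moment at a translated centre, comparison with the centred one. -/
lemma TT_qw_shift_le (hu : Sol u) (hR : 0 < R) {z : Fin n → ℝ} (hz : z ∈ box n R) (a : ℝ) :
    TT (qw p (z p - a)) (fun x => u (x + z)) R ≤ 16 / 9 * (PA u p a (kap n * R) / R ^ (n - 1)) := by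
  have hk := one_le_kap (n := n)
  have hk0 : 0 < kap n * R := by positivity
  have cen : Continuous (en u) := (en_contDiff hu.c2).continuous
  have ca : Continuous (fun x : Fin n → ℝ => (x p - a) ^ 2) := by fun_prop
  have h1 : II (qw p (z p - a)) (fun x => u (x + z)) R
      = ∫ y, (y p - a) ^ 2 * (en u y * ph R (y - z)) := by
    unfold II
    rw [← integral_add_right_eq_self (μ := (volume : Measure (Fin n → ℝ)))
      (fun y => (y p - a) ^ 2 * (en u y * ph R (y - z))) z]
    congr 1; ext x
    simp only [qw, Pi.add_apply, en_translate, add_sub_cancel_right]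
    ring
  have h2 : ∫ y, (y p - a) ^ 2 * (en u y * ph R (y - z))
      ≤ ∫ y, 16 / 9 * ((y p - a) ^ 2 * (en u y * ph (kap n * R) y)) := by
    apply integral_mono
    · have : Continuous (fun y : Fin n → ℝ => ph R (y - z)) :=
        (ph_contDiff R).continuous.comp (continuous_id.sub continuous_const)
      refine (ca.mul (cen.mul this)).integrable_of_hasCompactSupport ?_
      have hs : HasCompactSupport (fun y : Fin n → ℝ => ph R (y - z)) :=
        (ph_hasCompactSupport hR).comp_homeomorph (Homeomorph.subRight z)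
      exact hs.mul_left.mul_left
    · exact (II_integrable hu ca hk0).const_mul _
    · intro y
      simp only
      have a1 := ph_shift_le hR hz y
      have a3 := en_nonneg u y
      calc (y p - a) ^ 2 * (en u y * ph R (y - z))
          ≤ (y p - a) ^ 2 * (en u y * (16 / 9 * ph (kap n * R) y)) :=
            mul_le_mul_of_nonneg_left (mul_le_mul_of_nonneg_left a1 a3) (sq_nonneg _)
        _ = _ := by ring
  rw [integral_const_mul] at h2
  unfold TT PA
  rw [h1, ← mul_div_assoc]
  exact div_le_div_of_nonneg_right h2 (by positivity)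

/-- (2.3) The height bound, centres in the box. -/
theorem height_box (p : Fin n) : ∃ C : ℝ, 1 ≤ C ∧ ∀ u : (Fin n → ℝ) → ℝ, Sol u → ∀ a R : ℝ,
    1 ≤ R → ∀ z ∈ box n R, |u z| ≤ 3 / 4 →
      (z p - a) ^ 2 ≤ C * (1 + PA u p a (kap n * R) / R ^ (n - 1)) := by
  obtain ⟨c, hc, hcl⟩ := en_lower p
  refine ⟨2 + 32 / (9 * c), by have : 0 ≤ 32 / (9 * c) := by positivity
                               linarith, ?_⟩
  intro u hu a R hR z hz huz
  have hR0 : 0 < R := by linarith
  have hk := one_le_kap (n := n)
  have hv := hu.translate z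
  set d : ℝ := z p - a with hd
  have h2 := TT_qw_mono hv p d (Set.mem_Ioi.mpr one_pos) (Set.mem_Ioi.mpr hR0) hR
  have h3 := TT_qw_shift_le (p := p) hu hR0 hz a
  rw [← hd] at h3
  have hPA := PA_nonneg u p a (kap n * R)
  set P : ℝ := PA u p a (kap n * R) / R ^ (n - 1) with hP
  have hP0 : 0 ≤ P := by positivity
  rcases lt_or_ge (d ^ 2) 2 with h4 | h4
  · have : 0 ≤ 32 / (9 * c) := by positivity
    nlinarith [mul_nonneg this hP0]
  · have h5 : (d ^ 2 / 2 - 1) * c ≤ TT (qw p d) (fun x => u (x + z)) 1 := by
      unfold TT II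
      rw [one_pow, div_one]
      have h5 := hcl _ hv (by simpa using huz)
      calc (d ^ 2 / 2 - 1) * c ≤ (d ^ 2 / 2 - 1) * ∫ x, en (fun x => u (x + z)) x * ph 1 x :=
            mul_le_mul_of_nonneg_left h5 (by linarith)
        _ = ∫ x, (d ^ 2 / 2 - 1) * (en (fun x => u (x + z)) x * ph 1 x) := by
            rw [integral_const_mul]
        _ ≤ _ := by
            apply integral_mono (II_integrable hv continuous_const one_pos)
              (II_integrable hv (qw_contDiff p d).continuous one_pos)
            intro x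
            simp only [qw]
            by_cases hm : mm 1 x = 0
            · simp [ph, hm]
            · have h6 := abs_le.mp (abs_le_of_mm_ne one_pos hm p)
              have h7 : d ^ 2 / 2 - 1 ≤ (x p + d) ^ 2 := by
                nlinarith [sq_nonneg (2 * x p + d)]
              exact mul_le_mul_of_nonneg_right h7
                (mul_nonneg (en_nonneg _ _) (ph_nonneg _ _))
    have h6 : (d ^ 2 / 2 - 1) * c ≤ 16 / 9 * P := h5.trans (h2.trans h3)
    have h7 : d ^ 2 / 2 - 1 ≤ 16 / 9 * P / c := by rw [le_div_iff₀ hc]; exact h6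
    have h8 : 16 / 9 * P / c = 16 / (9 * c) * P := by field_simp
    rw [h8] at h7
    have h9 : 32 / (9 * c) = 2 * (16 / (9 * c)) := by ring
    rw [h9]
    have h10 : 0 ≤ 16 / (9 * c) := by positivity
    nlinarith [mul_nonneg h10 hP0]

/-- (2.3) The height bound, centres in the ball. -/
theorem height_ball (p : Fin n) : ∃ C : ℝ, 1 ≤ C ∧ ∀ u : (Fin n → ℝ) → ℝ, Sol u → ∀ a R : ℝ,
    1 ≤ R → ∀ z, esq z ≤ R ^ 2 → |u z| ≤ 3 / 4 →
      (z p - a) ^ 2 ≤ C * (1 + PA u p a (kap n * R) / R ^ (n - 1)) := by
  obtain ⟨C, hC, h⟩ := height_box p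
  refine ⟨C, hC, fun u hu a R hR z hz huz => h u hu a R hR z ?_ huz⟩
  rw [mem_box]
  intro i
  have h1 := sq_le_esq z i
  exact abs_le_of_sq_le_sq (h1.trans hz) (by linarith)

end Vale.Agent.P134.H370
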