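import Vale.Agent.P134.H370.Tilt
import Vale.Agent.P134.H891.Decay

set_option linter.all false

open MeasureTheory Filter Topology

namespace Vale.Agent.P134.H370

open Vale.Agent.P134.H891

variable {n : ℕ} {u v χ w : (Fin n → ℝ) → ℝ} {p q : Fin n} {a R H : ℝ}

/-! ### Two sided slab lemma -/

/-- The two sided majorant. -/
noncomputable def maj2 (a H M K c : ℝ) (s : ℝ) : ℝ :=
  M * (Set.Icc (a - H) (a + H)).indicator (fun _ => (1:ℝ)) s
    + K * (1 + (s - (a + H)) ^ 2)⁻¹ + K * (1 + (s - (a - H)) ^ 2)⁻¹ + c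

lemma ind_nonneg (A : Set ℝ) (s : ℝ) : 0 ≤ A.indicator (fun _ => (1:ℝ)) s :=
  Set.indicator_nonneg (fun _ _ => zero_le_one) s

lemma ind_le_one (A : Set ℝ) (s : ℝ) : A.indicator (fun _ => (1:ℝ)) s ≤ 1 := by
  by_cases h : s ∈ A
  · rw [Set.indicator_of_mem h]
  · rw [Set.indicator_of_notMem h]; norm_num

lemma measurable_maj2 (a H M K c : ℝ) : Measurable (maj2 a H M K c) := by
  unfold maj2
  apply Measurable.add_const
  apply Measurable.add
  · apply Measurable.add
    · exact (Measurable.indicator measurable_const measurableSet_Icc).const_mul _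
    · apply Measurable.const_mul
      apply Measurable.inv
      fun_prop
  · apply Measurable.const_mul
    apply Measurable.inv
    fun_prop

lemma maj2_bounded {a H M K c : ℝ} (hM : 0 ≤ M) (hK : 0 ≤ K) (hc : 0 ≤ c) (s : ℝ) :
    |maj2 a H M K c s| ≤ M + 2 * K + c := by
  have h0 : ∀ t : ℝ, (1 + t ^ 2)⁻¹ ≤ 1 := fun t =>
    inv_le_one_of_one_le₀ (by nlinarith [sq_nonneg t])
  have h0' : ∀ t : ℝ, 0 ≤ (1 + t ^ 2)⁻¹ := fun t => by positivity
  have h1 := h0 (s - (a + H))
  have h2 := h0 (s - (a - H))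
  have h1' := h0' (s - (a + H))
  have h2' := h0' (s - (a - H))
  have h3 := ind_le_one (Set.Icc (a - H) (a + H)) s
  have h3' := ind_nonneg (Set.Icc (a - H) (a + H)) s
  unfold maj2
  rw [abs_of_nonneg (by positivity)]
  have := mul_le_mul_of_nonneg_left h3 hM
  have := mul_le_mul_of_nonneg_left h1 hK
  have := mul_le_mul_of_nonneg_left h2 hK
  linarith

lemma interval_ind2_le {a H : ℝ} (hH : 0 ≤ H) {r : ℝ} (hr : 0 ≤ r) :
    ∫ s in (-r)..r, (Set.Icc (a - H) (a + H)).indicator (fun _ => (1:ℝ)) s ≤ 2 * H := by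
  rw [intervalIntegral.integral_of_le (by linarith)]
  calc ∫ s in Set.Ioc (-r) r, (Set.Icc (a - H) (a + H)).indicator (fun _ => (1:ℝ)) s
      ≤ ∫ s, (Set.Icc (a - H) (a + H)).indicator (fun _ => (1:ℝ)) s := by
        apply setIntegral_le_integral
        · exact (integrableOn_const (by simp)).integrable_indicator measurableSet_Icc
        · exact Eventually.of_forall fun s => Set.indicator_nonneg (fun _ _ => zero_le_one) s
    _ = 2 * H := by
        rw [integral_indicator measurableSet_Icc, setIntegral_const]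
        simp only [Measure.real, Real.volume_Icc, smul_eq_mul, mul_one]
        rw [ENNReal.toReal_ofReal (by linarith)]; ring

lemma intervalIntegrable_ind2 (a H b c : ℝ) :
    IntervalIntegrable ((Set.Icc (a - H) (a + H)).indicator (fun _ => (1:ℝ))) volume b c := by
  rw [intervalIntegrable_iff]
  exact (integrableOn_const (by simp)).indicator measurableSet_Icc

lemma interval_maj2_le {a H M K c r : ℝ} (hH : 0 ≤ H) (hM : 0 ≤ M) (hK : 0 ≤ K) (hr : 0 ≤ r) :
    ∫ s in (-r)..r, maj2 a H M K c s ≤ 2 * H * M + 8 * K + 2 * r * c := by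
  unfold maj2
  have j1 := (intervalIntegrable_ind2 a H (-r) r).const_mul M
  have j2 := (intervalIntegrable_arctan (a + H) (-r) r).const_mul K
  have j3 := (intervalIntegrable_arctan (a - H) (-r) r).const_mul K
  rw [intervalIntegral.integral_add ((j1.add j2).add j3) intervalIntegrable_const,
    intervalIntegral.integral_add (j1.add j2) j3, intervalIntegral.integral_add j1 j2,
    intervalIntegral.integral_const_mul, intervalIntegral.integral_const_mul,
    intervalIntegral.integral_const_mul, intervalIntegral.integral_const]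
  have h1 := interval_arctan_le (a + H) r
  have h1' := interval_arctan_le (a - H) r
  have h2 := interval_ind2_le (a := a) hH hr
  have h3 := Real.pi_le_four
  have h4 := mul_le_mul_of_nonneg_left (h1.trans h3) hK
  have h4' := mul_le_mul_of_nonneg_left (h1'.trans h3) hK
  have h5 := mul_le_mul_of_nonneg_left h2 hM
  rw [smul_eq_mul]
  nlinarith

/-- Two sided slab lemma. -/
lemma slab2 {p : Fin n} {F : (Fin n → ℝ) → ℝ} {a H M K c r : ℝ} (hH : 0 ≤ H) (hM : 0 ≤ M)
    (hK : 0 ≤ K) (hc : 0 ≤ c) (hr : 0 ≤ r) (hF : Integrable F) (h0 : ∀ x, x ∉ box n r → F x ≤ 0)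
    (hb : ∀ x ∈ box n r, F x ≤ maj2 a H M K c (x p)) :
    ∫ x, F x ≤ (2 * H * M + 8 * K + 2 * r * c) * (2 * r) ^ (n - 1) := by
  have hm : MeasurableSet (box n r) := measurableSet_Icc
  have hi : IntegrableOn (fun x : Fin n → ℝ => maj2 a H M K c (x p)) (box n r) := by
    apply Measure.integrableOn_of_bounded (M := M + 2 * K + c) (volume_box_ne_top r)
    · exact ((measurable_maj2 a H M K c).comp (measurable_pi_apply p)).aestronglyMeasurable
    · exact Eventually.of_forall fun x => by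
        rw [Real.norm_eq_abs]; exact maj2_bounded hM hK hc _
  have h1 : ∫ x, F x ≤ ∫ x in box n r, maj2 a H M K c (x p) := by
    rw [← integral_indicator hm]
    apply integral_mono hF (hi.integrable_indicator hm)
    intro x
    by_cases hx : x ∈ box n r
    · rw [Set.indicator_of_mem hx]; exact hb x hx
    · rw [Set.indicator_of_notMem hx]; exact h0 x hx
  rw [box_integral_coord p hr] at h1
  refine h1.trans ?_
  rw [mul_comm]
  exact mul_le_mul_of_nonneg_right (interval_maj2_le hH hM hK hr) (by positivity)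

lemma maj2_ge_mid {a H M K c s : ℝ} (hK : 0 ≤ K) (hc : 0 ≤ c) (hs : |s - a| ≤ H) :
    M ≤ maj2 a H M K c s := by
  have h := abs_le.mp hs
  unfold maj2
  rw [Set.indicator_of_mem (Set.mem_Icc.mpr ⟨by linarith [h.1], by linarith [h.2]⟩)]
  have : 0 ≤ K * (1 + (s - (a + H)) ^ 2)⁻¹ := by positivity
  have : 0 ≤ K * (1 + (s - (a - H)) ^ 2)⁻¹ := by positivity
  linarith

lemma maj2_ge_out {a H M K c s : ℝ} (hM : 0 ≤ M) (hK : 0 ≤ K) :
    K / (1 + (|s - a| - H) ^ 2) + c ≤ maj2 a H M K c s := by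
  unfold maj2
  have h3' := mul_nonneg hM (ind_nonneg (Set.Icc (a - H) (a + H)) s)
  have h1 : 0 ≤ K * (1 + (s - (a + H)) ^ 2)⁻¹ := by positivity
  have h2 : 0 ≤ K * (1 + (s - (a - H)) ^ 2)⁻¹ := by positivity
  rw [div_eq_mul_inv]
  rcases le_total 0 (s - a) with h | h
  · rw [abs_of_nonneg h]
    have e : s - a - H = s - (a + H) := by ring
    rw [e]; linarith
  · rw [abs_of_nonpos h]
    have e : (-(s - a) - H) ^ 2 = (s - (a - H)) ^ 2 := by ring
    rw [e]; linarith

/-! ### Decay away from the interface (2.0) -/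

lemma esq_near {x y : Fin n → ℝ} {ρ R : ℝ} (hx : esq x ≤ R ^ 2) (hρ : 0 ≤ ρ) (hnρ : n * ρ ≤ R)
    (h : ∀ i, |y i - x i| ≤ ρ) (hR : 0 ≤ R) : esq y ≤ (2 * R) ^ 2 := by
  have h1 : esq y ≤ 2 * esq x + 2 * (n * ρ ^ 2) := by
    unfold esq
    have e : 2 * ∑ i, x i ^ 2 + 2 * (n * ρ ^ 2) = ∑ i : Fin n, (2 * x i ^ 2 + 2 * ρ ^ 2) := by
      rw [Finset.sum_add_distrib, ← Finset.mul_sum]
      simp; ring
    rw [e]
    apply Finset.sum_le_sum
    intro i _
    have h2 : (y i - x i) ^ 2 ≤ ρ ^ 2 := by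
      rw [← sq_abs]; exact pow_le_pow_left₀ (abs_nonneg _) (h i) 2
    nlinarith [sq_nonneg (y i - 2 * x i)]
  have h2 : (n : ℝ) * ρ ^ 2 ≤ R ^ 2 := by
    rcases Nat.eq_zero_or_pos n with hn | hn
    · subst hn; simp; positivity
    · have h3 : (1:ℝ) ≤ n := by exact_mod_cast hn
      have h4 : (n * ρ) ^ 2 ≤ R ^ 2 := pow_le_pow_left₀ (by positivity) hnρ 2
      nlinarith [sq_nonneg ρ]
  nlinarith

lemma flat_up (hu : Sol u) (hF : Flat u p a (2 * R) H) (hR : 0 ≤ R) {x : Fin n → ℝ}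
    (hx : esq x ≤ R ^ 2) {ρ : ℝ} (hρ : 0 ≤ ρ) (h1 : ρ < x p - a - H) (h2 : n * ρ ≤ R) :
    1 - u x ≤ 2 * n * Real.exp (-ρ) := by
  apply decay hu hρ x
  intro y hy
  have h3 := esq_near hx hρ h2 hy hR
  refine (hF y h3).1 ?_
  have := abs_le.mp (hy p)
  linarith [this.1]

lemma flat_down (hu : Sol u) (hF : Flat u p a (2 * R) H) (hR : 0 ≤ R) {x : Fin n → ℝ}
    (hx : esq x ≤ R ^ 2) {ρ : ℝ} (hρ : 0 ≤ ρ) (h1 : ρ < -(x p - a) - H) (h2 : n * ρ ≤ R) :
    1 + u x ≤ 2 * n * Real.exp (-ρ) := by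
  have h := decay hu.neg hρ x (by
    intro y hy
    have h3 := esq_near hx hρ h2 hy hR
    have h4 := (hF y h3).2 (by
      have := abs_le.mp (hy p)
      linarith [this.2])
    linarith)
  linarith

lemma exp_min_le {t r : ℝ} : Real.exp (-(2 * min (t / 2) r)) ≤ Real.exp (-t) + Real.exp (-(2 * r)) := by
  rcases min_choice (t / 2) r with h | h
  · rw [h]
    have : -(2 * (t / 2)) = -t := by ring
    rw [this]; linarith [Real.exp_pos (-(2 * r))]
  · rw [h]; linarith [Real.exp_pos (-t)]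

/-- Decay of `1 - |u|` in the flat region (square form). -/
lemma flat_sq (hn : 1 ≤ n) (hu : Sol u) (hF : Flat u p a (2 * R) H) (hR : 0 < R) {x : Fin n → ℝ}
    (hx : esq x ≤ R ^ 2) (h : H < |x p - a|) :
    (0 ≤ x p - a → (1 - u x) ^ 2 ≤ 4 * n ^ 2 * (Real.exp (-(|x p - a| - H)) + Real.exp (-(2 * (R / n)))))
    ∧ (x p - a ≤ 0 → (1 + u x) ^ 2
      ≤ 4 * n ^ 2 * (Real.exp (-(|x p - a| - H)) + Real.exp (-(2 * (R / n))))) := by
  have hn0 : (0:ℝ) < n := by exact_mod_cast hn
  set t : ℝ := |x p - a| - H with ht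
  have ht0 : 0 < t := by rw [ht]; linarith
  set ρ : ℝ := min (t / 2) (R / n) with hρ
  have hρ0 : 0 ≤ ρ := le_min (by positivity) (by positivity)
  have hρ1 : ρ < t := lt_of_le_of_lt (min_le_left _ _) (by linarith)
  have hρ2 : n * ρ ≤ R := by
    have : ρ ≤ R / n := min_le_right _ _
    rw [le_div_iff₀ hn0] at this
    linarith
  have hb := abs_le.mp (hu.bd x)
  have key : ∀ y : ℝ, 0 ≤ y → y ≤ 2 * n * Real.exp (-ρ) →
      y ^ 2 ≤ 4 * n ^ 2 * (Real.exp (-t) + Real.exp (-(2 * (R / n)))) := by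
    intro y hy0 hy
    have h1 : y ^ 2 ≤ (2 * n * Real.exp (-ρ)) ^ 2 := pow_le_pow_left₀ hy0 hy 2
    have h2 : (2 * (n:ℝ) * Real.exp (-ρ)) ^ 2 = 4 * n ^ 2 * Real.exp (-(2 * ρ)) := by
      have : Real.exp (-(2 * ρ)) = Real.exp (-ρ) ^ 2 := by
        rw [← Real.exp_nat_mul]; congr 1; push_cast; ring
      rw [this]; ring
    rw [h2] at h1
    exact h1.trans (mul_le_mul_of_nonneg_left exp_min_le (by positivity))
  constructor
  · intro h0
    apply key _ (by linarith [hb.2])
    apply flat_up hu hF hR.le hx hρ0 _ hρ2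
    rw [ht, abs_of_nonneg h0] at hρ1
    linarith
  · intro h0
    apply key _ (by linarith [hb.1])
    apply flat_down hu hF hR.le hx hρ0 _ hρ2
    rw [ht, abs_of_nonpos h0] at hρ1
    linarith

lemma exp_abs_mono {H s : ℝ} (hH : 0 ≤ H) : Real.exp (-(√2 * |s|)) ^ 2 ≤ Real.exp (-(|s| - H)) := by
  rw [← Real.exp_nat_mul]
  apply Real.exp_le_exp.mpr
  have := one_lt_sqrt2
  push_cast
  nlinarith [abs_nonneg s]

/-- Pointwise bound for the gap. -/
lemma gap_flat (hn : 1 ≤ n) (hu : Sol u) (hF : Flat u p a (2 * R) H) (hH : 0 ≤ H) (hR : 0 < R)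
    {x : Fin n → ℝ} (hx : esq x ≤ R ^ 2) (h : H < |x p - a|) :
    gap u p a x ≤ (4 * n ^ 2 + 4) * (Real.exp (-(|x p - a| - H)) + Real.exp (-(2 * (R / n)))) := by
  obtain ⟨h1, h2⟩ := flat_sq hn hu hF hR hx h
  have hb := hu.bd x
  have hg := Ga_abs p a x
  have e1 := exp_abs_mono (s := x p - a) hH
  have e2 := Real.exp_pos (-(2 * (R / n)))
  rcases le_total 0 (x p - a) with h0 | h0
  · have h3 := h1 h0
    have h4 := Psi_one_sub_le_sq hb
    have h5 := Psi_one_sub_le_sq hg
    have h6 := Psi_le_Psi_one hb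
    have h7 := Psi_le_Psi_one hg
    have h8 : (1 - Ga p a x) ^ 2 ≤ 4 * Real.exp (-(|x p - a| - H)) := by
      have h9 : 1 - Ga p a x ≤ 2 * Real.exp (-(√2 * |x p - a|)) := by
        unfold Ga
        have := one_sub_gp_le (x p - a)
        rwa [abs_of_nonneg h0]
      have h10 : 0 ≤ 1 - Ga p a x := by linarith [(abs_le.mp hg).2]
      have h11 := pow_le_pow_left₀ h10 h9 2
      rw [mul_pow] at h11
      nlinarith
    unfold gap
    rw [abs_le]
    constructor <;> nlinarith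
  · have h3 := h2 h0
    have h4 := Psi_le_sq hb
    have h5 := Psi_le_sq hg
    have h6 := Psi_nonneg hb
    have h7 := Psi_nonneg hg
    have h8 : (1 + Ga p a x) ^ 2 ≤ 4 * Real.exp (-(|x p - a| - H)) := by
      have h9 : 1 + Ga p a x ≤ 2 * Real.exp (-(√2 * |x p - a|)) := by
        unfold Ga
        have := one_add_gp_le (x p - a)
        rw [abs_of_nonpos h0]
        have e : -(√2 * -(x p - a)) = √2 * (x p - a) := by ring
        rwa [e]
      have h10 : 0 ≤ 1 + Ga p a x := by linarith [(abs_le.mp hg).1]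
      have h11 := pow_le_pow_left₀ h10 h9 2
      rw [mul_pow] at h11
      nlinarith
    unfold gap
    rw [abs_le]
    constructor <;> nlinarith

/-- Pointwise bound for `ψ²` in the flat region. -/
lemma psi_flat (hn : 1 ≤ n) (hu : Sol u) (hF : Flat u p a (2 * R) H) (hR : 0 < R)
    {x : Fin n → ℝ} (hx : esq x ≤ R ^ 2) (h : H < |x p - a|) :
    psi u x ^ 2 ≤ 16 * n ^ 2 * (Real.exp (-(|x p - a| - H)) + Real.exp (-(2 * (R / n)))) := by
  obtain ⟨h1, h2⟩ := flat_sq hn hu hF hR hx h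
  have hb := abs_le.mp (hu.bd x)
  have e : psi u x = (1 - u x) * (1 + u x) := by unfold psi; ring
  rcases le_total 0 (x p - a) with h0 | h0
  · have h3 := h1 h0
    have h4 : psi u x ^ 2 ≤ 4 * (1 - u x) ^ 2 := by
      rw [e, mul_pow]
      have : (1 + u x) ^ 2 ≤ 4 := by nlinarith
      nlinarith [sq_nonneg (1 - u x)]
    nlinarith
  · have h3 := h2 h0
    have h4 : psi u x ^ 2 ≤ 4 * (1 + u x) ^ 2 := by
      rw [e, mul_pow]
      have : (1 - u x) ^ 2 ≤ 4 := by nlinarith
      nlinarith [sq_nonneg (1 + u x)]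
    nlinarith

end Vale.Agent.P134.H370
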