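import Vale.Agent.P134.H891.Growth

set_option linter.all false

open MeasureTheory Filter Topology

namespace Vale.Agent.P134.H370

open Vale.Agent.P134.H891

variable {n : ℕ} {u v χ w : (Fin n → ℝ) → ℝ} {p q : Fin n} {a R H : ℝ}

/-! ### The shifted profile -/

/-- Heteroclinic profile with zero set `x_p = a`. -/
noncomputable def Ga (p : Fin n) (a : ℝ) (x : Fin n → ℝ) : ℝ := gp (x p - a)

lemma contDiff_gp {k : ℕ} : ContDiff ℝ k gp := by
  unfold gp
  apply ContDiff.sub contDiff_const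
  apply ContDiff.div contDiff_const
  · exact (Real.contDiff_exp.comp (contDiff_const.mul contDiff_id)).add contDiff_const
  · intro x; positivity

lemma Ga_contDiff (p : Fin n) (a : ℝ) {k : ℕ} : ContDiff ℝ k (Ga p a) :=
  contDiff_gp.comp ((contDiff_apply ℝ ℝ p).sub contDiff_const)

lemma pd_Ga (p i : Fin n) (a : ℝ) (x : Fin n → ℝ) :
    pd i (Ga p a) x = if i = p then (1 - gp (x p - a) ^ 2) / √2 else 0 := by
  have h1 : DifferentiableAt ℝ (fun y : Fin n → ℝ => y p - a) x := by fun_prop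
  show pd i (fun y => gp (y p - a)) x = _
  rw [pd_comp (h := gp) (hasDerivAt_gp _).differentiableAt h1, (hasDerivAt_gp _).deriv]
  have e : pd i (fun y : Fin n → ℝ => y p - a) x = if p = i then 1 else 0 := by
    rw [pd_sub (by fun_prop) (by fun_prop), pd_coord, pd_const, sub_zero]
  rw [e]
  by_cases hi : i = p
  · subst hi; simp
  · rw [if_neg hi, if_neg (fun h => hi h.symm), mul_zero]

lemma Ga_abs (p : Fin n) (a : ℝ) (x : Fin n → ℝ) : |Ga p a x| ≤ 1 := gp_abs _

lemma Ga_sol (p : Fin n) (a : ℝ) : Sol (Ga p a : (Fin n → ℝ) → ℝ) where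
  c2 := Ga_contDiff p a (k := 2)
  bd := Ga_abs p a
  eq := fun x => by
    rw [Finset.sum_eq_single p]
    · have e0 : pd p (Ga p a) = fun y : Fin n → ℝ => (fun t : ℝ => (1 - t ^ 2) / √2) (Ga p a y) := by
        funext y; rw [pd_Ga, if_pos rfl]; rfl
      have hd : HasDerivAt (fun t : ℝ => (1 - t ^ 2) / √2) (-(2 * Ga p a x) / √2) (Ga p a x) := by
        have := ((hasDerivAt_pow 2 (Ga p a x)).const_sub 1).div_const (√2)
        simpa using this
      rw [e0, pd_comp (h := fun t : ℝ => (1 - t ^ 2) / √2) hd.differentiableAt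
        ((Ga_contDiff p a (k := 1)).differentiable (by norm_num) x), hd.deriv, pd_Ga, if_pos rfl]
      have h2 := sqrt2_sq
      have h3 := sqrt2_pos
      have e1 : gp (x p - a) = Ga p a x := rfl
      rw [e1]
      field_simp
      rw [h2]; ring
    · intro i _ hi
      have e0 : pd i (Ga p a) = fun _ : Fin n → ℝ => (0:ℝ) := by
        funext y; rw [pd_Ga, if_neg hi]
      rw [e0, pd_const]
    · intro h; exact absurd (Finset.mem_univ _) h

lemma GG_eq (p : Fin n) : GG p = Ga p 0 := by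
  funext x; unfold GG Ga; rw [sub_zero]

lemma en_Ga (p : Fin n) (a : ℝ) (x : Fin n → ℝ) : en (Ga p a) x = psi (Ga p a) x ^ 2 / 2 := by
  unfold en
  have h : ∑ j, pd j (Ga p a) x ^ 2 = psi (Ga p a) x ^ 2 / 2 := by
    simp_rw [pd_Ga]
    rw [Finset.sum_eq_single p]
    · rw [if_pos rfl, div_pow, sqrt2_sq]; rfl
    · intro i _ hi; rw [if_neg hi]; ring
    · intro h; exact absurd (Finset.mem_univ _) h
  rw [h]
  have e : (1 - Ga p a x ^ 2) = psi (Ga p a) x := rfl
  rw [e]; ring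

lemma Ga_translate (p : Fin n) (a : ℝ) (x : Fin n → ℝ) :
    Ga p a x = Ga p 0 (x - a • Pi.single p 1) := by
  unfold Ga; simp

lemma psi_Ga_nonneg (p : Fin n) (a : ℝ) (x : Fin n → ℝ) : 0 ≤ psi (Ga p a) x :=
  (Ga_sol p a).psi_nonneg x

lemma psi_Ga_le (p : Fin n) (a : ℝ) (x : Fin n → ℝ) :
    psi (Ga p a) x ≤ 4 * Real.exp (-(√2 * |x p - a|)) := by
  have e : psi (Ga p a) x = psi (GG p) (x - a • Pi.single p 1) := by
    unfold psi; rw [GG_eq, ← Ga_translate]
  rw [e]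
  have := psi_GG_le p (x - a • Pi.single p 1)
  simpa using this

lemma psi_Ga_sq_le (p : Fin n) (a : ℝ) (x : Fin n → ℝ) :
    psi (Ga p a) x ^ 2 ≤ 48 / (1 + (x p - a) ^ 2) := by
  have e : psi (Ga p a) x = psi (GG p) (x - a • Pi.single p 1) := by
    unfold psi; rw [GG_eq, ← Ga_translate]
  rw [e]
  have := psi_GG_sq_le p (x - a • Pi.single p 1)
  simpa using this

lemma sq_mul_psi_Ga_sq_le (p : Fin n) (a : ℝ) (x : Fin n → ℝ) :
    (x p - a) ^ 2 * psi (Ga p a) x ^ 2 ≤ 416 / (1 + (x p - a) ^ 2) := by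
  have e : psi (Ga p a) x = psi (GG p) (x - a • Pi.single p 1) := by
    unfold psi; rw [GG_eq, ← Ga_translate]
  rw [e]
  have := sq_mul_psi_GG_sq_le p (x - a • Pi.single p 1)
  simpa using this

/-! ### Definitions of the functionals -/

/-- Flatness: at distance more than `H` from the hyperplane `x_p = a` the solution is near `±1`, with
the right sign. -/
def Flat (u : (Fin n → ℝ) → ℝ) (p : Fin n) (a R H : ℝ) : Prop :=
  ∀ x, esq x ≤ R ^ 2 → (H < x p - a → 3 / 4 ≤ u x) ∧ (x p - a < -H → u x ≤ -(3 / 4))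

/-- The L¹ density between `u` and the profile. -/
noncomputable def gap (u : (Fin n → ℝ) → ℝ) (p : Fin n) (a : ℝ) (x : Fin n → ℝ) : ℝ :=
  |Psi (u x) - Psi (Ga p a x)|

/-- Weighted L¹ distance. -/
noncomputable def JJ (u : (Fin n → ℝ) → ℝ) (p : Fin n) (a R : ℝ) : ℝ :=
  ∫ x, |x p - a| * gap u p a x * mm R x

/-- L¹ distance. -/
noncomputable def J0 (u : (Fin n → ℝ) → ℝ) (p : Fin n) (a R : ℝ) : ℝ :=
  ∫ x, gap u p a x * mm R x

/-- Tilt density. -/
noncomputable def TL (u : (Fin n → ℝ) → ℝ) (p : Fin n) (x : Fin n → ℝ) : ℝ :=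
  (∑ i ∈ Finset.univ.erase p, pd i u x ^ 2) + (pd p u x - psi u x / √2) ^ 2

/-- Tilt excess (not normalised). -/
noncomputable def TILT (u : (Fin n → ℝ) → ℝ) (p : Fin n) (R : ℝ) : ℝ := ∫ x, TL u p x * ph R x

/-- Second moment of the energy. -/
noncomputable def PA (u : (Fin n → ℝ) → ℝ) (p : Fin n) (a R : ℝ) : ℝ :=
  ∫ x, (x p - a) ^ 2 * (en u x * ph R x)

lemma gap_nonneg (u : (Fin n → ℝ) → ℝ) (p : Fin n) (a : ℝ) (x : Fin n → ℝ) : 0 ≤ gap u p a x :=
  abs_nonneg _

lemma gap_continuous (hu : Sol u) (p : Fin n) (a : ℝ) : Continuous (gap u p a) :=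
  ((Psi_comp_continuous hu).sub (Psi_comp_continuous (Ga_sol p a))).abs

lemma gap_le_one (hu : Sol u) (p : Fin n) (a : ℝ) (x : Fin n → ℝ) : gap u p a x ≤ 1 := by
  unfold gap
  rw [abs_le]
  have h1 := Psi_nonneg (hu.bd x)
  have h2 := Psi_le_one (hu.bd x)
  have h3 := Psi_nonneg (Ga_abs p a x)
  have h4 := Psi_le_one (Ga_abs p a x)
  constructor <;> linarith

lemma TL_nonneg (u : (Fin n → ℝ) → ℝ) (p : Fin n) (x : Fin n → ℝ) : 0 ≤ TL u p x := by
  unfold TL
  have : 0 ≤ ∑ i ∈ Finset.univ.erase p, pd i u x ^ 2 := Finset.sum_nonneg fun _ _ => sq_nonneg _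
  positivity

lemma TL_continuous (hu : Sol u) (p : Fin n) : Continuous (TL u p) := by
  unfold TL
  have h : ∀ j, Continuous (pd j u) := fun j => (contDiff_pd_one hu.c2).continuous
  exact (continuous_finsetSum _ fun j _ => (h j).pow 2).add
    (((h p).sub (hu.psi_contDiff.continuous.div_const _)).pow 2)

/-- The energy density splits into the derivative of `Ψ(u)` and the tilt density. -/
lemma en_split (hu : Sol u) (p : Fin n) (x : Fin n → ℝ) :
    en u x = pd p (fun x => Psi (u x)) x + 1 / 2 * TL u p x := by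
  rw [pd_Psi hu]
  unfold en TL psi
  rw [← Finset.add_sum_erase _ _ (Finset.mem_univ p)]
  have h2 := sqrt2_sq
  have h3 := sqrt2_pos
  have e : ((1 - u x ^ 2) / √2) ^ 2 = (1 - u x ^ 2) ^ 2 / 2 := by rw [div_pow, h2]
  nlinarith [e]

lemma TL_Ga (p : Fin n) (a : ℝ) (x : Fin n → ℝ) : TL (Ga p a) p x = 0 := by
  unfold TL
  rw [pd_Ga, if_pos rfl]
  have e : (1 - gp (x p - a) ^ 2) = psi (Ga p a) x := rfl
  rw [e, sub_self]
  have : ∑ i ∈ Finset.univ.erase p, pd i (Ga p a) x ^ 2 = 0 := by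
    apply Finset.sum_eq_zero
    intro i hi
    rw [pd_Ga, if_neg (Finset.ne_of_mem_erase hi)]; ring
  rw [this]; ring

lemma TL_le (hu : Sol u) (p : Fin n) (x : Fin n → ℝ) : TL u p x ≤ 2 * psi u x ^ 2 := by
  unfold TL
  have h1 := hu.defi_nonneg x
  unfold defi at h1
  rw [← Finset.add_sum_erase _ _ (Finset.mem_univ p)] at h1
  have h2 := sqrt2_sq
  have h3 := sqrt2_pos
  have h4 := hu.psi_nonneg x
  have e : (psi u x / √2) ^ 2 = psi u x ^ 2 / 2 := by rw [div_pow, h2]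
  have h5 : 0 ≤ ∑ i ∈ Finset.univ.erase p, pd i u x ^ 2 := Finset.sum_nonneg fun _ _ => sq_nonneg _
  have h6 : pd p u x ^ 2 ≤ (psi u x / √2) ^ 2 := by rw [e]; linarith
  have h7 : |pd p u x| ≤ psi u x / √2 := abs_le_of_sq_le_sq h6 (by positivity)
  have h8 := abs_le.mp h7
  nlinarith [sq_nonneg (pd p u x + psi u x / √2)]

end Vale.Agent.P134.H370
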