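import Vale.Agent.P134.H370.Moments

set_option linter.all false

open MeasureTheory Filter Topology

namespace Vale.Agent.P134.H370

open Vale.Agent.P134.H891

variable {n : ℕ} {u v χ w : (Fin n → ℝ) → ℝ} {p q : Fin n} {a R H : ℝ}

/-! ### (2.0) and (2.0') : the L¹ distances -/

/-- Dimensional constant. -/
noncomputable def DD (n : ℕ) : ℝ := 4 * (n : ℝ) ^ 2 + 4

lemma DD_pos : 0 < DD n := by unfold DD; positivity

/-- Exponential tail. -/
noncomputable def ET (n : ℕ) (R : ℝ) : ℝ := Real.exp (-(2 * (R / n)))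

lemma ET_pos (R : ℝ) : 0 < ET n R := Real.exp_pos _

lemma ET_le (hn : 1 ≤ n) (hR : 0 ≤ R) (k : ℕ) : R ^ k * ET n R ≤ k.factorial * ((n : ℝ) / 2) ^ k := by
  have hn0 : (0:ℝ) < n := by exact_mod_cast hn
  set t : ℝ := 2 * (R / n) with ht
  have ht0 : 0 ≤ t := by positivity
  have h1 := pow_le_exp ht0 k
  have h2 : R = t * (n / 2) := by rw [ht]; field_simp
  have h3 : t ^ k * Real.exp (-t) ≤ k.factorial := by
    have h4 := mul_le_mul_of_nonneg_right h1 (Real.exp_pos (-t)).le
    have h5 : Real.exp t * Real.exp (-t) = 1 := by rw [← Real.exp_add, add_neg_cancel, Real.exp_zero]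
    rw [mul_assoc, h5, mul_one] at h4
    exact h4
  unfold ET
  rw [← ht]
  calc R ^ k * Real.exp (-t) = (t ^ k * Real.exp (-t)) * (n / 2) ^ k := by
        conv_lhs => rw [h2]
        rw [mul_pow]; ring
    _ ≤ k.factorial * ((n:ℝ) / 2) ^ k := mul_le_mul_of_nonneg_right h3 (by positivity)

lemma maj2_nonneg {a H M K c s : ℝ} (hM : 0 ≤ M) (hK : 0 ≤ K) (hc : 0 ≤ c) :
    0 ≤ maj2 a H M K c s := by
  unfold maj2
  have h3' := mul_nonneg hM (ind_nonneg (Set.Icc (a - H) (a + H)) s)
  have h1 : 0 ≤ K * (1 + (s - (a + H)) ^ 2)⁻¹ := by positivity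
  have h2 : 0 ≤ K * (1 + (s - (a - H)) ^ 2)⁻¹ := by positivity
  linarith

lemma gap_flat' (hn : 1 ≤ n) (hu : Sol u) (hF : Flat u p a (2 * R) H) (hH : 0 ≤ H) (hR : 0 < R)
    {x : Fin n → ℝ} (hx : mm R x ≠ 0) (h : H < |x p - a|) :
    gap u p a x * mm R x ≤ DD n * (Real.exp (-(|x p - a| - H)) + ET n R) := by
  have h1 := gap_flat hn hu hF hH hR (esq_lt_of_mm_ne hR hx).le h
  have h2 := mm_le_one (r := R) x
  have h3 := mm_nonneg R x
  have h4 := gap_nonneg u p a x
  calc gap u p a x * mm R x ≤ gap u p a x * 1 := mul_le_mul_of_nonneg_left h2 h4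
    _ ≤ _ := by rw [mul_one]; exact h1

lemma abs_sub_le_of_mm (hR : 0 < R) (ha : |a| ≤ R) {x : Fin n → ℝ} (hx : mm R x ≠ 0) :
    |x p - a| ≤ 2 * R := by
  have h1 := abs_le_of_mm_ne hR hx p
  have h2 : |x p - a| ≤ |x p| + |a| := abs_sub _ _
  linarith

lemma integrable_gap_mm (hu : Sol u) (p : Fin n) (a : ℝ) (hR : 0 < R) :
    Integrable (fun x => gap u p a x * mm R x) :=
  ((gap_continuous hu p a).mul (continuous_mm R)).integrable_of_hasCompactSupport
    (mm_hasCompactSupport hR).mul_left

lemma integrable_J (hu : Sol u) (p : Fin n) (a : ℝ) (hR : 0 < R) :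
    Integrable (fun x => |x p - a| * gap u p a x * mm R x) := by
  have ca : Continuous (fun x : Fin n → ℝ => |x p - a|) := by fun_prop
  exact ((ca.mul (gap_continuous hu p a)).mul (continuous_mm R)).integrable_of_hasCompactSupport
    (mm_hasCompactSupport hR).mul_left

lemma JJ_nonneg (u : (Fin n → ℝ) → ℝ) (p : Fin n) (a R : ℝ) : 0 ≤ JJ u p a R := by
  unfold JJ
  apply integral_nonneg
  intro x
  have := gap_nonneg u p a x
  have := mm_nonneg R x
  simp only [Pi.zero_apply]
  positivity

lemma J0_nonneg (u : (Fin n → ℝ) → ℝ) (p : Fin n) (a R : ℝ) : 0 ≤ J0 u p a R := by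
  unfold J0
  apply integral_nonneg
  intro x
  have := gap_nonneg u p a x
  have := mm_nonneg R x
  simp only [Pi.zero_apply]
  positivity

/-- (2.0), unweighted. -/
theorem J0_le (hn : 1 ≤ n) (hu : Sol u) (hR : 0 < R) (hH : 0 ≤ H)
    (hF : Flat u p a (2 * R) H) :
    J0 u p a R ≤ (2 ^ (n - 1) * (DD n * (24 + n))) * (1 + H) * R ^ (n - 1) := by
  have hD := DD_pos (n := n)
  have hE := ET_pos (n := n) R
  have hD1 : 1 ≤ DD n := by unfold DD; nlinarith [sq_nonneg (n:ℝ)]
  have key := slab2 (p := p) (F := fun x => gap u p a x * mm R x) (a := a) (H := H) (M := 1)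
    (K := 3 * DD n) (c := DD n * ET n R) (r := R) hH zero_le_one (by positivity) (by positivity)
    hR.le (integrable_gap_mm hu p a hR)
    (by
      intro x hx
      rw [mm_eq_zero_of_notMem hR le_rfl hx]; simp)
    (by
      intro x _
      by_cases hm : mm R x = 0
      · rw [hm, mul_zero]; exact maj2_nonneg zero_le_one (by positivity) (by positivity)
      rcases le_or_gt (|x p - a|) H with h | h
      · refine le_trans ?_ (maj2_ge_mid (by positivity) (by positivity) h)
        have h1 := gap_le_one hu p a x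
        have h2 := mm_le_one (r := R) x
        have h3 := mm_nonneg R x
        have h4 := gap_nonneg u p a x
        nlinarith
      · refine le_trans (gap_flat' hn hu hF hH hR hm h) ?_
        refine le_trans ?_ (maj2_ge_out zero_le_one (by positivity))
        have h1 := exp_neg_le (t := |x p - a| - H) (by linarith)
        have h2 := mul_le_mul_of_nonneg_left h1 hD.le
        have e : 3 * DD n / (1 + (|x p - a| - H) ^ 2)
          = DD n * (3 / (1 + (|x p - a| - H) ^ 2)) := by ring
        rw [e]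
        linarith)
  unfold J0
  refine key.trans ?_
  have h1 := ET_le hn hR.le 1
  rw [pow_one, pow_one] at h1
  have hn0 : (0:ℝ) ≤ n := Nat.cast_nonneg n
  have h2 : 2 * H * 1 + 8 * (3 * DD n) + 2 * R * (DD n * ET n R)
      ≤ DD n * (24 + n) * (1 + H) := by
    have h3 : 2 * R * (DD n * ET n R) = 2 * DD n * (R * ET n R) := by ring
    rw [h3]
    have h4 : 2 * DD n * (R * ET n R) ≤ 2 * DD n * (n / 2) := by
      apply mul_le_mul_of_nonneg_left _ (by positivity)
      simpa using h1
    have h5 : 2 * H ≤ DD n * (24 + n) * H := by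
      apply mul_le_mul_of_nonneg_right _ hH
      nlinarith
    nlinarith
  calc (2 * H * 1 + 8 * (3 * DD n) + 2 * R * (DD n * ET n R)) * (2 * R) ^ (n - 1)
      ≤ (DD n * (24 + n) * (1 + H)) * (2 * R) ^ (n - 1) :=
        mul_le_mul_of_nonneg_right h2 (by positivity)
    _ = _ := by rw [mul_pow]; ring

lemma mul_exp_H_le {t H : ℝ} (ht : 0 ≤ t) (hH : 0 ≤ H) :
    (t + H) * Real.exp (-t) ≤ (10 + 3 * H) / (1 + t ^ 2) := by
  have h1 := mul_exp_neg_le ht
  have h2 := mul_le_mul_of_nonneg_left (exp_neg_le ht) hH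
  have e : (10 + 3 * H) / (1 + t ^ 2) = 10 / (1 + t ^ 2) + H * (3 / (1 + t ^ 2)) := by ring
  rw [e]; linarith

/-- (2.0), weighted. -/
theorem JJ_le (hn : 1 ≤ n) (hu : Sol u) (hR : 0 < R) (ha : |a| ≤ R) (hH : 0 ≤ H)
    (hF : Flat u p a (2 * R) H) :
    JJ u p a R ≤ (2 ^ (n - 1) * (DD n * (80 + 2 * n ^ 2))) * (1 + H) ^ 2 * R ^ (n - 1) := by
  have hD := DD_pos (n := n)
  have hE := ET_pos (n := n) R
  have hD1 : 1 ≤ DD n := by unfold DD; nlinarith [sq_nonneg (n:ℝ)]
  have key := slab2 (p := p) (F := fun x => |x p - a| * gap u p a x * mm R x) (a := a) (H := H)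
    (M := H) (K := DD n * (10 + 3 * H)) (c := DD n * (2 * R * ET n R)) (r := R) hH hH
    (by positivity) (by positivity) hR.le (integrable_J hu p a hR)
    (by
      intro x hx
      rw [mm_eq_zero_of_notMem hR le_rfl hx]; simp)
    (by
      intro x _
      by_cases hm : mm R x = 0
      · rw [hm, mul_zero]; exact maj2_nonneg hH (by positivity) (by positivity)
      have h0 := abs_nonneg (x p - a)
      rcases le_or_gt (|x p - a|) H with h | h
      · refine le_trans ?_ (maj2_ge_mid (by positivity) (by positivity) h)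
        have h1 := gap_le_one hu p a x
        have h2 := mm_le_one (r := R) x
        have h3 := mm_nonneg R x
        have h4 := gap_nonneg u p a x
        have h5 : gap u p a x * mm R x ≤ 1 := by nlinarith
        calc |x p - a| * gap u p a x * mm R x = |x p - a| * (gap u p a x * mm R x) := by ring
          _ ≤ H * 1 := mul_le_mul h h5 (by positivity) hH
          _ = H := mul_one H
      · have h1 := gap_flat' hn hu hF hH hR hm h
        have h2 := mul_le_mul_of_nonneg_left h1 h0
        refine le_trans ?_ (maj2_ge_out hH (by positivity))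
        have h3 := mul_exp_H_le (t := |x p - a| - H) (by linarith) hH
        rw [sub_add_cancel] at h3
        have h4 := mul_le_mul_of_nonneg_left h3 hD.le
        have h5 := abs_sub_le_of_mm (p := p) hR ha hm
        have h6 : |x p - a| * ET n R ≤ 2 * R * ET n R := mul_le_mul_of_nonneg_right h5 hE.le
        have h7 := mul_le_mul_of_nonneg_left h6 hD.le
        have e : DD n * (10 + 3 * H) / (1 + (|x p - a| - H) ^ 2)
          = DD n * ((10 + 3 * H) / (1 + (|x p - a| - H) ^ 2)) := by ring
        rw [e]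
        nlinarith)
  unfold JJ
  refine key.trans ?_
  have h1 := ET_le hn hR.le 2
  have h2 : 2 * H * H + 8 * (DD n * (10 + 3 * H)) + 2 * R * (DD n * (2 * R * ET n R))
      ≤ DD n * (80 + 2 * n ^ 2) * (1 + H) ^ 2 := by
    have h3 : 2 * R * (DD n * (2 * R * ET n R)) = 4 * DD n * (R ^ 2 * ET n R) := by ring
    rw [h3]
    have h4 : 4 * DD n * (R ^ 2 * ET n R) ≤ 4 * DD n * (2 * (n / 2) ^ 2) := by
      apply mul_le_mul_of_nonneg_left _ (by positivity)
      simpa using h1
    have h5 : 2 * H * H ≤ DD n * 80 * H ^ 2 := by nlinarith [sq_nonneg H]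
    have h6 : 0 ≤ DD n * (n:ℝ) ^ 2 * ((1 + H) ^ 2 - 1) := by
      apply mul_nonneg (by positivity); nlinarith
    nlinarith [mul_nonneg hD.le hH]
  calc (2 * H * H + 8 * (DD n * (10 + 3 * H)) + 2 * R * (DD n * (2 * R * ET n R)))
        * (2 * R) ^ (n - 1)
      ≤ (DD n * (80 + 2 * n ^ 2) * (1 + H) ^ 2) * (2 * R) ^ (n - 1) :=
        mul_le_mul_of_nonneg_right h2 (by positivity)
    _ = _ := by rw [mul_pow]; ring

lemma exp_half_le {t : ℝ} (ht : 0 ≤ t) : Real.exp (-(t / 2)) ≤ 12 / (1 + t ^ 2) := by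
  have h := exp_neg_le (t := t / 2) (by positivity)
  refine h.trans ?_
  rw [div_le_div_iff₀ (by positivity) (by positivity)]
  nlinarith [sq_nonneg t]

/-- `e^{-t} ≤ R^{-k} e^{-t/2}` for `t ≥ 2 k log R`. -/
lemma exp_log_le {t : ℝ} (hR : 0 < R) (k : ℕ) (h : 2 * k * Real.log R ≤ t) :
    R ^ k * Real.exp (-t) ≤ Real.exp (-(t / 2)) := by
  have h1 : R ^ k = Real.exp (k * Real.log R) := by
    rw [mul_comm, Real.exp_mul, Real.exp_log hR, Real.rpow_natCast]
  rw [h1, ← Real.exp_add]
  apply Real.exp_le_exp.mpr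
  linarith

/-- (2.0') : the weighted distance in terms of the unweighted one. -/
theorem JJ_le_J0 (hn : 1 ≤ n) (hu : Sol u) (hR : 1 ≤ R) (ha : |a| ≤ R) (hH : 0 ≤ H) (hHR : H ≤ R)
    (hF : Flat u p a (2 * R) H) :
    JJ u p a R ≤ (H + 2 * Real.log R) * J0 u p a R
      + (2 ^ (n - 1) * (DD n * (176 + 2 * n ^ 2))) * R ^ (n - 1) := by
  have hR0 : 0 < R := by linarith
  have hD := DD_pos (n := n)
  have hE := ET_pos (n := n) R
  have hl := Real.log_nonneg hR
  set B : ℝ := H + 2 * Real.log R with hB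
  have key := slab2 (p := p)
    (F := fun x => |x p - a| * gap u p a x * mm R x - B * (gap u p a x * mm R x)) (a := a) (H := H)
    (M := 0) (K := DD n * 22) (c := DD n * (2 * R * ET n R)) (r := R) hH le_rfl
    (by positivity) (by positivity) hR0.le
    ((integrable_J hu p a hR0).sub ((integrable_gap_mm hu p a hR0).const_mul B))
    (by
      intro x hx
      rw [mm_eq_zero_of_notMem hR0 le_rfl hx]; simp)
    (by
      intro x _
      have hgm : 0 ≤ gap u p a x * mm R x := mul_nonneg (gap_nonneg u p a x) (mm_nonneg R x)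
      rcases le_or_gt (|x p - a|) B with h | h
      · refine le_trans ?_ (maj2_nonneg le_rfl (by positivity) (by positivity))
        have := mul_le_mul_of_nonneg_right h hgm
        linarith
      · by_cases hm : mm R x = 0
        · rw [hm]; simp only [mul_zero, sub_zero]
          exact maj2_nonneg le_rfl (by positivity) (by positivity)
        have h0 := abs_nonneg (x p - a)
        have hH' : H < |x p - a| := by rw [hB] at h; linarith
        have h1 := gap_flat' hn hu hF hH hR0 hm hH'
        have h2 := mul_le_mul_of_nonneg_left h1 h0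
        refine le_trans ?_ (maj2_ge_out le_rfl (by positivity))
        have ht0 : 0 ≤ |x p - a| - H := by linarith
        have h3 : |x p - a| * Real.exp (-(|x p - a| - H)) ≤ 22 / (1 + (|x p - a| - H) ^ 2) := by
          have h4 := mul_exp_neg_le ht0
          have h5 := exp_log_le (t := |x p - a| - H) hR0 1 (by rw [hB] at h; push_cast; linarith)
          have h6 := exp_half_le ht0
          have h7 : H * Real.exp (-(|x p - a| - H)) ≤ R ^ 1 * Real.exp (-(|x p - a| - H)) := by
            rw [pow_one]; exact mul_le_mul_of_nonneg_right hHR (Real.exp_pos _).le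
          have e : (22:ℝ) / (1 + (|x p - a| - H) ^ 2)
            = 10 / (1 + (|x p - a| - H) ^ 2) + 12 / (1 + (|x p - a| - H) ^ 2) := by ring
          rw [e]
          linarith
        have h4 := mul_le_mul_of_nonneg_left h3 hD.le
        have h5 := abs_sub_le_of_mm (p := p) hR0 ha hm
        have h6 : |x p - a| * ET n R ≤ 2 * R * ET n R := mul_le_mul_of_nonneg_right h5 hE.le
        have h7 := mul_le_mul_of_nonneg_left h6 hD.le
        have h8 : 0 ≤ B * (gap u p a x * mm R x) := mul_nonneg (by positivity) hgm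
        have e : DD n * 22 / (1 + (|x p - a| - H) ^ 2)
          = DD n * (22 / (1 + (|x p - a| - H) ^ 2)) := by ring
        rw [e]
        nlinarith)
  rw [integral_sub (integrable_J hu p a hR0) ((integrable_gap_mm hu p a hR0).const_mul B),
    integral_const_mul] at key
  have h1 := ET_le hn hR0.le 2
  have h2 : 2 * H * 0 + 8 * (DD n * 22) + 2 * R * (DD n * (2 * R * ET n R))
      ≤ DD n * (176 + 2 * n ^ 2) := by
    have h3 : 2 * R * (DD n * (2 * R * ET n R)) = 4 * DD n * (R ^ 2 * ET n R) := by ring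
    rw [h3]
    have h4 : 4 * DD n * (R ^ 2 * ET n R) ≤ 4 * DD n * (2 * (n / 2) ^ 2) := by
      apply mul_le_mul_of_nonneg_left _ (by positivity)
      simpa using h1
    nlinarith
  have h3 : (2 * H * 0 + 8 * (DD n * 22) + 2 * R * (DD n * (2 * R * ET n R)))
        * (2 * R) ^ (n - 1)
      ≤ (2 ^ (n - 1) * (DD n * (176 + 2 * n ^ 2))) * R ^ (n - 1) := by
    calc _ ≤ (DD n * (176 + 2 * n ^ 2)) * (2 * R) ^ (n - 1) :=
          mul_le_mul_of_nonneg_right h2 (by positivity)
      _ = _ := by rw [mul_pow]; ring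
  unfold JJ J0
  linarith

end Vale.Agent.P134.H370
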