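import Vale.Agent.P134.H370.Basic

set_option linter.all false

open MeasureTheory Filter Topology

namespace Vale.Agent.P134.H370

open Vale.Agent.P134.H891

variable {n : ℕ} {u v χ w : (Fin n → ℝ) → ℝ} {p q : Fin n} {a R H : ℝ}

/-! ### Second difference of the cut-off and the shifted profile energy -/

lemma gp_neg (s : ℝ) : gp (-s) = - gp s := by
  unfold gp
  have h := Real.exp_pos (√2 * s)
  have e : √2 * -s = -(√2 * s) := by ring
  rw [e, Real.exp_neg]
  field_simp
  ring

lemma en_GG_neg (p : Fin n) (x : Fin n → ℝ) : en (GG p) (-x) = en (GG p) x := by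
  rw [en_GG, en_GG]
  unfold psi GG
  rw [Pi.neg_apply, gp_neg]; ring

lemma esq_neg (x : Fin n → ℝ) : esq (-x) = esq x := by
  unfold esq
  refine Finset.sum_congr rfl fun i _ => ?_
  rw [Pi.neg_apply]; ring

lemma mm_neg (R : ℝ) (x : Fin n → ℝ) : mm R (-x) = mm R x := by
  unfold mm; rw [esq_neg]

lemma ph_neg (R : ℝ) (x : Fin n → ℝ) : ph R (-x) = ph R x := by
  unfold ph; rw [mm_neg]

lemma esq_shift (p : Fin n) (a : ℝ) (x : Fin n → ℝ) :
    esq (x + a • Pi.single p 1) = esq x + 2 * a * x p + a ^ 2 := by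
  unfold esq
  rw [← Finset.add_sum_erase _ _ (Finset.mem_univ p), ← Finset.add_sum_erase _ (fun i => x i ^ 2)
    (Finset.mem_univ p)]
  have h : ∑ i ∈ Finset.univ.erase p, (x + a • (Pi.single p 1 : Fin n → ℝ)) i ^ 2
      = ∑ i ∈ Finset.univ.erase p, x i ^ 2 := by
    refine Finset.sum_congr rfl fun i hi => ?_
    have : i ≠ p := Finset.ne_of_mem_erase hi
    simp [Pi.single_eq_of_ne this]
  rw [h]
  simp
  ring

lemma pp_alg (z d y1 y2 : ℝ) (hd : 0 ≤ d) (h : y1 + y2 = 2 * (z - d)) :
    2 * pp z ^ 2 - 4 * d * pp z ≤ pp y1 ^ 2 + pp y2 ^ 2 := by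
  have h1 := le_pp y1
  have h2 := le_pp y2
  have h3 := pp_nonneg y1
  have h4 := pp_nonneg y2
  rcases le_total z 0 with hz | hz
  · rw [pp_of_nonpos hz]
    nlinarith [sq_nonneg (pp y1), sq_nonneg (pp y2)]
  · rw [pp_of_nonneg hz]
    rcases le_total z d with hzd | hzd
    · have : 2 * z ^ 2 - 4 * d * z ≤ 0 := by nlinarith
      nlinarith [sq_nonneg (pp y1), sq_nonneg (pp y2)]
    · have h5 : 2 * (z - d) ≤ pp y1 + pp y2 := by linarith
      have h6 : 0 ≤ z - d := by linarith
      nlinarith [sq_nonneg (pp y1 - pp y2), mul_self_le_mul_self (by linarith : 0 ≤ 2 * (z - d)) h5,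
        sq_nonneg d]

lemma ph_second_diff {R : ℝ} (hR : 0 < R) (p : Fin n) (a : ℝ) (x : Fin n → ℝ) :
    2 * ph R x - 4 * (a ^ 2 / R ^ 2) * mm R x
      ≤ ph R (x + a • Pi.single p 1) + ph R (x - a • Pi.single p 1) := by
  unfold ph mm
  apply pp_alg _ _ _ _ (by positivity)
  have e : x - a • (Pi.single p 1 : Fin n → ℝ) = x + (-a) • Pi.single p 1 := by
    rw [neg_smul]; rfl
  rw [e, esq_shift, esq_shift]
  field_simp
  ring

lemma energy_box (p : Fin n) {R : ℝ} (hR : 0 < R) :
    ∫ x, en (GG p) x * mm R x ≤ 96 * (2 * R) ^ (n - 1) := by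
  have hG : Sol (GG p : (Fin n → ℝ) → ℝ) := by rw [GG_eq]; exact Ga_sol p 0
  have key := slab (p := p) (F := fun x => en (GG p) x * mm R x) (K := 24) (a := 0)
    (M := 0) (L := 0) (by norm_num) le_rfl le_rfl hR.le
    (((en_contDiff hG.c2).continuous.mul (continuous_mm R)).integrable_of_hasCompactSupport
      (mm_hasCompactSupport hR).mul_left)
    (by
      intro x hx
      rw [mm_eq_zero_of_notMem hR le_rfl hx]; simp)
    (by
      intro x hx
      refine le_trans ?_ (maj_ge_left le_rfl)
      rw [en_GG, sub_zero]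
      have h1 := psi_GG_sq_le p x
      have h2 := mm_le_one (r := R) x
      have h3 := mm_nonneg R x
      calc psi (GG p) x ^ 2 / 2 * mm R x ≤ psi (GG p) x ^ 2 / 2 * 1 :=
            mul_le_mul_of_nonneg_left h2 (by positivity)
        _ ≤ (48 / (1 + x p ^ 2)) / 2 := by linarith
        _ = _ := by ring)
  linarith

/-- The energy of the shifted profile is almost that of the centred one. -/
lemma shift_energy (p : Fin n) (a : ℝ) {R : ℝ} (hR : 0 < R) :
    ∫ x, en (GG p) x * ph R x ≤ (∫ x, en (Ga p a) x * ph R x)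
      + 192 * (a ^ 2 / R ^ 2) * (2 * R) ^ (n - 1) := by
  have hG : Sol (GG p : (Fin n → ℝ) → ℝ) := by rw [GG_eq]; exact Ga_sol p 0
  have c2 : Continuous (en (GG p) : (Fin n → ℝ) → ℝ) := (en_contDiff hG.c2).continuous
  have cp := (ph_contDiff (n := n) R).continuous
  have sp := ph_hasCompactSupport (n := n) hR
  set e : Fin n → ℝ := a • Pi.single p 1 with he
  have i0 : Integrable (fun x => en (GG p) x * ph R x) :=
    (c2.mul cp).integrable_of_hasCompactSupport sp.mul_left
  have i1 : Integrable (fun x : Fin n → ℝ => en (GG p) x * ph R (x + e)) := by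
    apply (c2.mul (cp.comp (by fun_prop))).integrable_of_hasCompactSupport
    exact (sp.comp_homeomorph (Homeomorph.addRight e)).mul_left
  have i2 : Integrable (fun x : Fin n → ℝ => en (GG p) x * ph R (x - e)) := by
    apply (c2.mul (cp.comp (by fun_prop))).integrable_of_hasCompactSupport
    exact (sp.comp_homeomorph (Homeomorph.subRight e)).mul_left
  have i3 : Integrable (fun x : Fin n → ℝ => en (GG p) x * mm R x) :=
    (c2.mul (continuous_mm R)).integrable_of_hasCompactSupport (mm_hasCompactSupport hR).mul_left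
  have e1 : ∫ x, en (GG p) x * ph R (x + e) = ∫ x, en (Ga p a) x * ph R x := by
    rw [← integral_sub_right_eq_self (fun x : Fin n → ℝ => en (GG p) x * ph R (x + e)) e]
    congr 1; ext x
    rw [sub_add_cancel]
    congr 1
    rw [en_GG, en_Ga]
    unfold psi
    rw [GG_eq, he, ← Ga_translate]
  have e2 : ∫ x, en (GG p) x * ph R (x - e) = ∫ x, en (GG p) x * ph R (x + e) := by
    rw [← integral_neg_eq_self (fun x : Fin n → ℝ => en (GG p) x * ph R (x - e))]
    congr 1; ext x
    rw [en_GG_neg, ← ph_neg R (-x - e)]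
    congr 2
    abel
  have h1 : ∫ x, (2 * (en (GG p) x * ph R x) - 4 * (a ^ 2 / R ^ 2) * (en (GG p) x * mm R x))
      ≤ ∫ x, (en (GG p) x * ph R (x + e) + en (GG p) x * ph R (x - e)) := by
    apply integral_mono ((i0.const_mul _).sub (i3.const_mul _)) (i1.add i2)
    intro x
    simp only [Pi.add_apply, Pi.sub_apply]
    have h2 := ph_second_diff hR p a x
    have h3 := en_nonneg (GG p) x
    have h4 := mul_le_mul_of_nonneg_left h2 h3
    nlinarith [h4]
  rw [integral_sub (i0.const_mul _) (i3.const_mul _), integral_add i1 i2, integral_const_mul,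
    integral_const_mul, e2, e1] at h1
  have h5 := energy_box p hR
  have h6 : 4 * (a ^ 2 / R ^ 2) * ∫ x, en (GG p) x * mm R x
      ≤ 4 * (a ^ 2 / R ^ 2) * (96 * (2 * R) ^ (n - 1)) :=
    mul_le_mul_of_nonneg_left h5 (by positivity)
  linarith

/-! ### The tilt inequality (2.1) -/

/-- Integration by parts against a test function for `Ψ(u) - Ψ(G)`. -/
lemma split_identity (hu : Sol u) (p : Fin n) (a : ℝ) (hχ : ContDiff ℝ 1 χ)
    (hc : HasCompactSupport χ) :
    ∫ x, en u x * χ x = (∫ x, en (Ga p a) x * χ x) + 1 / 2 * (∫ x, TL u p x * χ x)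
      - ∫ x, (Psi (u x) - Psi (Ga p a x)) * pd p χ x := by
  have hG := Ga_sol (n := n) p a
  have c1 : Continuous (en u) := (en_contDiff hu.c2).continuous
  have c2 : Continuous (en (Ga p a) : (Fin n → ℝ) → ℝ) := (en_contDiff hG.c2).continuous
  have i1 : Integrable (fun x => en u x * χ x) :=
    (c1.mul hχ.continuous).integrable_of_hasCompactSupport hc.mul_left
  have i2 : Integrable (fun x => en (Ga p a) x * χ x) :=
    (c2.mul hχ.continuous).integrable_of_hasCompactSupport hc.mul_left
  have i3 : Integrable (fun x => TL u p x * χ x) :=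
    ((TL_continuous hu p).mul hχ.continuous).integrable_of_hasCompactSupport hc.mul_left
  have f1 : ContDiff ℝ 1 (fun x => Psi (u x) - Psi (Ga p a x)) :=
    (Psi_comp_contDiff hu).sub (Psi_comp_contDiff hG)
  have hibp := integral_mul_pd (i := p) f1 hχ hc
  have hpd : ∀ x, pd p (fun x => Psi (u x) - Psi (Ga p a x)) x
      = en u x - en (Ga p a) x - 1 / 2 * TL u p x := by
    intro x
    have d1 : DifferentiableAt ℝ (fun x => Psi (u x)) x :=
      (Psi_comp_contDiff hu).differentiable (by norm_num) x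
    have d2 : DifferentiableAt ℝ (fun x => Psi (Ga p a x)) x :=
      (Psi_comp_contDiff hG).differentiable (by norm_num) x
    rw [pd_sub d1 d2, en_split hu p x, en_split hG p x, TL_Ga]
    ring
  have e1 : ∫ x, pd p (fun x => Psi (u x) - Psi (Ga p a x)) x * χ x
      = (∫ x, en u x * χ x) - (∫ x, en (Ga p a) x * χ x) - 1 / 2 * ∫ x, TL u p x * χ x := by
    have e0 : ∫ x, pd p (fun x => Psi (u x) - Psi (Ga p a x)) x * χ x
        = ∫ x, (en u x * χ x - en (Ga p a) x * χ x - 1 / 2 * (TL u p x * χ x)) := by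
      congr 1; ext x
      rw [hpd]; ring
    rw [e0]
    have e3 := integral_sub (i1.sub i2) (i3.const_mul (1 / 2))
    simp only [Pi.sub_apply] at e3
    rw [e3, integral_sub i1 i2, integral_const_mul]
  rw [e1] at hibp
  linarith

/-- (2.1) The tilt inequality. -/
theorem tilt_le (hu : Sol u) (p : Fin n) (a : ℝ) {K : ℝ} {R : ℝ} (hR : 0 < R)
    (hout : TT (fun _ => 1) u R ≤ TT (fun _ => 1) (GG p) R + K / R ^ 2) :
    TILT u p R ≤ 1 / R ^ 2 * ((2 * K + 384 * 2 ^ (n - 1) * a ^ 2) * R ^ (n - 1)
      + 8 * JJ u p a R + 8 * |a| * J0 u p a R) := by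
  have h1 := split_identity hu p a (ph_contDiff (n := n) R) (ph_hasCompactSupport hR)
  have h2 := shift_energy p a hR
  have h3 : ∫ x, en u x * ph R x ≤ (∫ x, en (GG p) x * ph R x) + K / R ^ 2 * R ^ (n - 1) := by
    rw [TT_one_eq, TT_one_eq, div_add' _ _ _ (by positivity),
      div_le_div_iff_of_pos_right (by positivity)] at hout
    exact hout
  have cg := gap_continuous hu p a
  have sm := mm_hasCompactSupport (n := n) hR
  have ca : Continuous (fun x : Fin n → ℝ => |x p - a|) := by fun_prop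
  have iJ : Integrable (fun x => |x p - a| * gap u p a x * mm R x) :=
    ((ca.mul cg).mul (continuous_mm R)).integrable_of_hasCompactSupport sm.mul_left
  have i0 : Integrable (fun x => gap u p a x * mm R x) :=
    (cg.mul (continuous_mm R)).integrable_of_hasCompactSupport sm.mul_left
  have h4 : ∫ x, (Psi (u x) - Psi (Ga p a x)) * pd p (ph R) x
      ≤ 4 / R ^ 2 * (JJ u p a R + |a| * J0 u p a R) := by
    unfold JJ J0
    rw [← integral_const_mul, ← integral_add iJ (i0.const_mul _), ← integral_const_mul]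
    apply integral_mono
    · exact ((((Psi_comp_continuous hu).sub (Psi_comp_continuous (Ga_sol p a))).mul
        (continuous_pd (ph_contDiff R)))).integrable_of_hasCompactSupport
        (hasCompactSupport_pd (ph_hasCompactSupport hR)).mul_left
    · exact (iJ.add (i0.const_mul _)).const_mul _
    · intro x
      simp only []
      rw [pd_ph]
      have hm := mm_nonneg R x
      have hg := gap_nonneg u p a x
      have hx : |x p| ≤ |x p - a| + |a| := by
        have := abs_add_le (x p - a) a
        rwa [sub_add_cancel] at this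
      have h5 : (Psi (u x) - Psi (Ga p a x)) * -(4 * mm R x / R ^ 2 * x p)
          ≤ gap u p a x * (4 * mm R x / R ^ 2 * |x p|) := by
        have h6 : |(Psi (u x) - Psi (Ga p a x)) * -(4 * mm R x / R ^ 2 * x p)|
            = gap u p a x * (4 * mm R x / R ^ 2 * |x p|) := by
          rw [abs_mul, abs_neg, abs_mul, abs_of_nonneg (by positivity : 0 ≤ 4 * mm R x / R ^ 2)]
          rfl
        exact (le_abs_self _).trans h6.le
      refine h5.trans ?_
      have h7 : gap u p a x * (4 * mm R x / R ^ 2 * |x p|)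
          ≤ gap u p a x * (4 * mm R x / R ^ 2 * (|x p - a| + |a|)) := by
        apply mul_le_mul_of_nonneg_left _ hg
        exact mul_le_mul_of_nonneg_left hx (by positivity)
      refine h7.trans (le_of_eq ?_)
      ring
  unfold TILT
  have h5 : (1:ℝ) / 2 * ∫ x, TL u p x * ph R x ≤ K / R ^ 2 * R ^ (n - 1)
      + 192 * (a ^ 2 / R ^ 2) * (2 * R) ^ (n - 1) + 4 / R ^ 2 * (JJ u p a R + |a| * J0 u p a R) := by
    linarith
  have e : 1 / R ^ 2 * ((2 * K + 384 * 2 ^ (n - 1) * a ^ 2) * R ^ (n - 1)
      + 8 * JJ u p a R + 8 * |a| * J0 u p a R)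
      = 2 * (K / R ^ 2 * R ^ (n - 1) + 192 * (a ^ 2 / R ^ 2) * (2 * R) ^ (n - 1)
        + 4 / R ^ 2 * (JJ u p a R + |a| * J0 u p a R)) := by
    rw [mul_pow]; ring
  rw [e]
  linarith

end Vale.Agent.P134.H370
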