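import Vale.Agent.P134.H370.HeightP
import Vale.Agent.P134.H787.StartEnd

set_option linter.all false

/-! The hypotheses `P20`, `P22`, `P23` of `H787.part_two`. -/

open MeasureTheory Filter Topology

namespace Vale.Agent.P134.H370

open Vale.Agent.P134 Vale.Agent.P134.H891

theorem p20 : H787.P20 := by
  refine ⟨2 ^ (4 - 1) * (DD 4 * (80 + 2 * (4 : ℕ) ^ 2)) + 2 ^ (4 - 1) * (DD 4 * (24 + (4 : ℕ))),
    by have := DD_pos (n := 4); positivity, ?_⟩
  intro v hv a R H hR hH ha hF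
  have hR0 : 0 < R := by linarith
  have h1 := JJ_le (n := 4) (p := 3) (by norm_num) hv hR0 ha hH hF
  have h2 := J0_le (n := 4) (p := 3) (by norm_num) hv hR0 hH hF
  have hD := DD_pos (n := 4)
  constructor
  · refine h1.trans ?_
    have : 0 ≤ 2 ^ (4 - 1) * (DD 4 * (24 + ((4 : ℕ) : ℝ))) * (1 + H) ^ 2 * R ^ 3 := by positivity
    norm_num at this ⊢
    nlinarith
  · refine h2.trans ?_
    have : 0 ≤ 2 ^ (4 - 1) * (DD 4 * (80 + 2 * ((4 : ℕ) : ℝ) ^ 2)) * (1 + H) * R ^ 3 := by positivity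
    norm_num at this ⊢
    nlinarith

theorem p22 : H787.P22 := by
  refine ⟨832 * 2 ^ (4 - 1) + 10 + 2, by positivity, ?_⟩
  intro v hv R hR
  have hR0 : 0 < R := by linarith
  have h1 := PA_le' (n := 4) (p := 3) (a := 0) hv hR0 (by rw [abs_zero]; exact hR0.le)
  have h2 := JJ_nonneg v 3 0 R
  have h3 := TILT_nonneg v 3 R
  refine h1.trans ?_
  have h4 : 0 ≤ R ^ 2 * TILT v 3 R := by positivity
  have h5 : 0 ≤ R ^ 3 := by positivity
  norm_num
  nlinarith

theorem p23 : H787.P23 := by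
  obtain ⟨C, hC, h⟩ := height_ball (n := 4) 3
  exact ⟨C, by linarith, fun v hv a R hR z hz hvz => h v hv a R hR z hz hvz⟩

/-- Part 2 of M4' from the improvement step alone. -/
theorem part_two' (hstep : ∀ u : (Fin 4 → ℝ) → ℝ, Sol u → (∀ x, |u x| < 1) → |u 0| ≤ 3 / 4 →
    M4.ST u → M4.OUT1 u → H787.STEP u) : M4.StF :=
  H787.part_two p20 p22 p23 hstep

end Vale.Agent.P134.H370
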