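import Vale.Agent.P134.H370.JBound

set_option linter.all false

open MeasureTheory Filter Topology

namespace Vale.Agent.P134.H370

open Vale.Agent.P134.H891

variable {n : ℕ} {u v χ w : (Fin n → ℝ) → ℝ} {p q : Fin n} {a R H : ℝ}

/-! ### (2.2) and (2.2') : the second moment of the energy -/

lemma pd_sq_coord (p i : Fin n) (a : ℝ) (x : Fin n → ℝ) :
    pd i (fun y : Fin n → ℝ => (y p - a) ^ 2) x = if p = i then 2 * (x p - a) else 0 := by
  have h1 : DifferentiableAt ℝ (fun y : Fin n → ℝ => y p - a) x := by fun_prop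
  have h2 : HasDerivAt (fun t : ℝ => t ^ 2) (2 * (x p - a)) (x p - a) := by
    simpa using hasDerivAt_pow 2 (x p - a)
  rw [pd_comp (h := fun t : ℝ => t ^ 2) (f := fun y : Fin n → ℝ => y p - a) h2.differentiableAt h1,
    h2.deriv]
  have e : pd i (fun y : Fin n → ℝ => y p - a) x = if p = i then 1 else 0 := by
    rw [pd_sub (by fun_prop) (by fun_prop), pd_coord, pd_const, sub_zero]
  rw [e]; split_ifs <;> simp

/-- Second moment of the tilt density. -/
noncomputable def T2 (u : (Fin n → ℝ) → ℝ) (p : Fin n) (a R : ℝ) : ℝ :=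
  ∫ x, (x p - a) ^ 2 * (TL u p x * ph R x)

lemma integrable_T2 (hu : Sol u) (p : Fin n) (a : ℝ) (hR : 0 < R) :
    Integrable (fun x => (x p - a) ^ 2 * (TL u p x * ph R x)) := by
  have ca : Continuous (fun x : Fin n → ℝ => (x p - a) ^ 2) := by fun_prop
  exact (ca.mul ((TL_continuous hu p).mul (ph_contDiff R).continuous)).integrable_of_hasCompactSupport
    (ph_hasCompactSupport hR).mul_left.mul_left

lemma integrable_TILT (hu : Sol u) (p : Fin n) (hR : 0 < R) :
    Integrable (fun x => TL u p x * ph R x) :=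
  ((TL_continuous hu p).mul (ph_contDiff R).continuous).integrable_of_hasCompactSupport
    (ph_hasCompactSupport hR).mul_left

lemma TILT_nonneg (u : (Fin n → ℝ) → ℝ) (p : Fin n) (R : ℝ) : 0 ≤ TILT u p R := by
  unfold TILT
  apply integral_nonneg
  intro x
  have := TL_nonneg u p x
  have := ph_nonneg R x
  simp only [Pi.zero_apply]
  positivity

lemma PA_nonneg (u : (Fin n → ℝ) → ℝ) (p : Fin n) (a R : ℝ) : 0 ≤ PA u p a R := by
  unfold PA
  apply integral_nonneg
  intro x
  have := en_nonneg u x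
  have := ph_nonneg R x
  simp only [Pi.zero_apply]
  positivity

/-- The second moment of the profile energy. -/
lemma PA_Ga_le (p : Fin n) (a : ℝ) (hR : 0 < R) :
    PA (Ga p a) p a R ≤ 832 * 2 ^ (n - 1) * R ^ (n - 1) := by
  have hG := Ga_sol (n := n) p a
  have ca : Continuous (fun x : Fin n → ℝ => (x p - a) ^ 2) := by fun_prop
  have cp := (ph_contDiff (n := n) R).continuous
  have key := slab (p := p) (F := fun x => (x p - a) ^ 2 * (en (Ga p a) x * ph R x)) (K := 208)
    (a := a) (M := 0) (L := 0) (by norm_num) le_rfl le_rfl hR.le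
    ((ca.mul ((en_contDiff hG.c2).continuous.mul cp)).integrable_of_hasCompactSupport
      (ph_hasCompactSupport hR).mul_left.mul_left)
    (by
      intro x hx
      unfold ph
      rw [mm_eq_zero_of_notMem hR le_rfl hx]; simp)
    (by
      intro x hx
      refine le_trans ?_ (maj_ge_left le_rfl)
      rw [en_Ga]
      have h1 := sq_mul_psi_Ga_sq_le p a x
      have h2 := ph_le_one (r := R) x
      have h3 := ph_nonneg R x
      calc (x p - a) ^ 2 * (psi (Ga p a) x ^ 2 / 2 * ph R x)
          = ((x p - a) ^ 2 * psi (Ga p a) x ^ 2) / 2 * ph R x := by ring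
        _ ≤ ((x p - a) ^ 2 * psi (Ga p a) x ^ 2) / 2 * 1 :=
            mul_le_mul_of_nonneg_left h2 (by positivity)
        _ ≤ (416 / (1 + (x p - a) ^ 2)) / 2 := by linarith
        _ = _ := by ring)
  unfold PA
  refine key.trans (le_of_eq ?_)
  rw [mul_pow]; ring

/-- (2.2') : no flatness needed. -/
theorem PA_le_T2 (hu : Sol u) (hR : 0 < R) (ha : |a| ≤ R) :
    PA u p a R ≤ 832 * 2 ^ (n - 1) * R ^ (n - 1) + 10 * JJ u p a R + 1 / 2 * T2 u p a R := by
  have hG := Ga_sol (n := n) p a
  set χ : (Fin n → ℝ) → ℝ := fun x => (x p - a) ^ 2 * ph R x with hχ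
  have d2 : ContDiff ℝ 1 (fun x : Fin n → ℝ => (x p - a) ^ 2) :=
    ((contDiff_apply ℝ ℝ p).sub contDiff_const).pow 2
  have cχ : ContDiff ℝ 1 χ := d2.mul (ph_contDiff R)
  have sχ : HasCompactSupport χ := (ph_hasCompactSupport hR).mul_left
  have h := split_identity hu p a cχ sχ
  have e1 : ∫ x, en u x * χ x = PA u p a R := by
    unfold PA
    congr 1; ext x
    rw [hχ]; ring
  have e2 : ∫ x, en (Ga p a) x * χ x = PA (Ga p a) p a R := by
    unfold PA
    congr 1; ext x
    rw [hχ]; ring
  have e3 : ∫ x, TL u p x * χ x = T2 u p a R := by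
    unfold T2
    congr 1; ext x
    rw [hχ]; ring
  rw [e1, e2, e3] at h
  have h4 := PA_Ga_le p a hR (n := n)
  have h5 : -(∫ x, (Psi (u x) - Psi (Ga p a x)) * pd p χ x) ≤ 10 * JJ u p a R := by
    rw [← integral_neg]
    unfold JJ
    rw [← integral_const_mul]
    apply integral_mono
    · exact ((((Psi_comp_continuous hu).sub (Psi_comp_continuous hG)).mul
        (continuous_pd cχ))).integrable_of_hasCompactSupport
        (hasCompactSupport_pd sχ).mul_left |>.neg
    · exact (integrable_J hu p a hR).const_mul _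
    · intro x
      have hp : pd p χ x = 2 * (x p - a) * ph R x - (x p - a) ^ 2 * (4 * mm R x / R ^ 2 * x p) := by
        rw [hχ]
        rw [pd_mul (d2.differentiable (by norm_num) x)
          ((ph_contDiff R).differentiable (by norm_num) x), pd_sq_coord, if_pos rfl, pd_ph]
        ring
      simp only []
      rw [hp]
      by_cases hm : mm R x = 0
      · unfold ph; rw [hm]; simp
      have hmn := mm_nonneg R x
      have hm1 := mm_le_one (r := R) x
      have h6 := abs_sub_le_of_mm (p := p) hR ha hm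
      have h7 := abs_le_of_mm_ne hR hm p
      have h8 : |2 * (x p - a) * ph R x - (x p - a) ^ 2 * (4 * mm R x / R ^ 2 * x p)|
          ≤ 10 * (|x p - a| * mm R x) := by
        refine (abs_sub _ _).trans ?_
        have h9 : |2 * (x p - a) * ph R x| ≤ 2 * (|x p - a| * mm R x) := by
          rw [abs_mul, abs_mul, abs_two, abs_of_nonneg (ph_nonneg R x)]
          have : ph R x ≤ mm R x := by unfold ph; nlinarith
          have := mul_le_mul_of_nonneg_left this (abs_nonneg (x p - a))
          linarith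
        have h10 : |(x p - a) ^ 2 * (4 * mm R x / R ^ 2 * x p)| ≤ 8 * (|x p - a| * mm R x) := by
          rw [abs_mul, abs_mul, abs_pow, abs_of_nonneg (by positivity : 0 ≤ 4 * mm R x / R ^ 2)]
          calc |x p - a| ^ 2 * (4 * mm R x / R ^ 2 * |x p|)
              = (|x p - a| * mm R x) * (|x p - a| * |x p|) * (4 / R ^ 2) := by ring
            _ ≤ (|x p - a| * mm R x) * (2 * R * R) * (4 / R ^ 2) := by
                apply mul_le_mul_of_nonneg_right _ (by positivity)
                apply mul_le_mul_of_nonneg_left _ (by positivity)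
                exact mul_le_mul h6 h7 (abs_nonneg _) (by positivity)
            _ = _ := by field_simp; ring
        linarith
      have h11 : -((Psi (u x) - Psi (Ga p a x))
          * (2 * (x p - a) * ph R x - (x p - a) ^ 2 * (4 * mm R x / R ^ 2 * x p)))
          ≤ gap u p a x * (10 * (|x p - a| * mm R x)) := by
        refine (neg_le_abs _).trans ?_
        rw [abs_mul]
        exact mul_le_mul_of_nonneg_left h8 (abs_nonneg _)
      refine h11.trans (le_of_eq ?_)
      ring
  linarith

lemma T2_le_TILT (hu : Sol u) (hR : 0 < R) (ha : |a| ≤ R) :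
    T2 u p a R ≤ 4 * R ^ 2 * TILT u p R := by
  unfold T2 TILT
  rw [← integral_const_mul]
  apply integral_mono (integrable_T2 hu p a hR) ((integrable_TILT hu p hR).const_mul _)
  intro x
  simp only []
  by_cases hm : mm R x = 0
  · unfold ph; rw [hm]; simp
  have h6 := abs_sub_le_of_mm (p := p) hR ha hm
  have h7 : (x p - a) ^ 2 ≤ 4 * R ^ 2 := by
    rw [← sq_abs]
    have := pow_le_pow_left₀ (abs_nonneg _) h6 2
    nlinarith
  exact mul_le_mul_of_nonneg_right h7 (mul_nonneg (TL_nonneg u p x) (ph_nonneg R x))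

lemma sq_mul_exp_le {t : ℝ} (ht : 0 ≤ t) : t ^ 2 * Real.exp (-t) ≤ 26 / (1 + t ^ 2) := by
  have h0 := Real.exp_pos (-t)
  have h2 := pow_le_exp ht 2
  have h4 := pow_le_exp ht 4
  have h5 : Real.exp t * Real.exp (-t) = 1 := by rw [← Real.exp_add, add_neg_cancel, Real.exp_zero]
  rw [le_div_iff₀ (by positivity)]
  simp [Nat.factorial] at h2 h4
  have h6 := mul_le_mul_of_nonneg_right h2 h0.le
  have h7 := mul_le_mul_of_nonneg_right h4 h0.le
  nlinarith

/-- Logarithmic truncation of the second moment of the tilt. -/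
theorem T2_le (hn : 1 ≤ n) (hu : Sol u) (hR : 1 ≤ R) (ha : |a| ≤ R) (hH : 0 ≤ H) (hHR : H ≤ R)
    (hF : Flat u p a (2 * R) H) :
    T2 u p a R ≤ (H + 4 * Real.log R) ^ 2 * TILT u p R
      + (2 ^ (n - 1) * (32 * n ^ 2 * (608 + 6 * n ^ 3))) * R ^ (n - 1) := by
  have hR0 : 0 < R := by linarith
  have hE := ET_pos (n := n) R
  have hl := Real.log_nonneg hR
  set B : ℝ := H + 4 * Real.log R with hB
  have hB0 : 0 ≤ B := by positivity
  have key := slab2 (p := p)
    (F := fun x => (x p - a) ^ 2 * (TL u p x * ph R x) - B ^ 2 * (TL u p x * ph R x)) (a := a)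
    (H := H) (M := 0) (K := 32 * n ^ 2 * 76) (c := 32 * n ^ 2 * (4 * R ^ 2 * ET n R)) (r := R)
    hH le_rfl (by positivity) (by positivity) hR0.le
    ((integrable_T2 hu p a hR0).sub ((integrable_TILT hu p hR0).const_mul _))
    (by
      intro x hx
      unfold ph
      rw [mm_eq_zero_of_notMem hR0 le_rfl hx]; simp)
    (by
      intro x _
      have hgm : 0 ≤ TL u p x * ph R x := mul_nonneg (TL_nonneg u p x) (ph_nonneg R x)
      rcases le_or_gt (|x p - a|) B with h | h
      · refine le_trans ?_ (maj2_nonneg le_rfl (by positivity) (by positivity))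
        have h1 : (x p - a) ^ 2 ≤ B ^ 2 := by
          rw [← sq_abs]; exact pow_le_pow_left₀ (abs_nonneg _) h 2
        have := mul_le_mul_of_nonneg_right h1 hgm
        linarith
      · by_cases hm : mm R x = 0
        · unfold ph; rw [hm]
          simp only [mul_zero, sub_zero, ne_eq, OfNat.ofNat_ne_zero, not_false_eq_true, zero_pow]
          exact maj2_nonneg le_rfl (by positivity) (by positivity)
        have hH' : H < |x p - a| := by rw [hB] at h; linarith
        have h1 := psi_flat hn hu hF hR0 (esq_lt_of_mm_ne hR0 hm).le hH'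
        have h2 := TL_le hu p x
        have h3 := ph_le_one (r := R) x
        have h4 := ph_nonneg R x
        set t : ℝ := |x p - a| - H with ht
        have ht0 : 0 ≤ t := by linarith
        have h5 : TL u p x * ph R x ≤ 32 * n ^ 2 * (Real.exp (-t) + ET n R) := by
          have h6 : TL u p x * ph R x ≤ TL u p x * 1 :=
            mul_le_mul_of_nonneg_left h3 (TL_nonneg u p x)
          unfold ET
          linarith
        have h6 : (x p - a) ^ 2 * Real.exp (-t) ≤ 76 / (1 + t ^ 2) := by
          have h7 : (x p - a) ^ 2 ≤ 2 * t ^ 2 + 2 * R ^ 2 := by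
            rw [← sq_abs]
            have e : |x p - a| = t + H := by rw [ht]; ring
            rw [e]
            nlinarith [sq_nonneg (t - H)]
          have h8 := sq_mul_exp_le ht0
          have h9 := exp_log_le (t := t) hR0 2 (by rw [ht]; rw [hB] at h; push_cast; linarith)
          have h10 := exp_half_le ht0
          have h11 := mul_le_mul_of_nonneg_right h7 (Real.exp_pos (-t)).le
          have e : (76:ℝ) / (1 + t ^ 2) = 2 * (26 / (1 + t ^ 2)) + 2 * (12 / (1 + t ^ 2)) := by ring
          rw [e]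
          linarith
        have h7 : (x p - a) ^ 2 * ET n R ≤ 4 * R ^ 2 * ET n R := by
          apply mul_le_mul_of_nonneg_right _ hE.le
          rw [← sq_abs]
          have := pow_le_pow_left₀ (abs_nonneg _) (abs_sub_le_of_mm (p := p) hR0 ha hm) 2
          nlinarith
        refine le_trans ?_ (maj2_ge_out le_rfl (by positivity))
        have h8 := mul_le_mul_of_nonneg_left h5 (sq_nonneg (x p - a))
        have h9 : 0 ≤ B ^ 2 * (TL u p x * ph R x) := by positivity
        have e : 32 * (n:ℝ) ^ 2 * 76 / (1 + (|x p - a| - H) ^ 2)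
          = 32 * n ^ 2 * (76 / (1 + (|x p - a| - H) ^ 2)) := by ring
        rw [e, ← ht]
        have h10 : (0:ℝ) ≤ 32 * n ^ 2 := by positivity
        have h11 := mul_le_mul_of_nonneg_left h6 h10
        have h12 := mul_le_mul_of_nonneg_left h7 h10
        nlinarith)
  rw [integral_sub (integrable_T2 hu p a hR0) ((integrable_TILT hu p hR0).const_mul _),
    integral_const_mul] at key
  have h1 := ET_le hn hR0.le 3
  have h2 : 2 * H * 0 + 8 * (32 * n ^ 2 * 76) + 2 * R * (32 * n ^ 2 * (4 * R ^ 2 * ET n R))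
      ≤ 32 * (n:ℝ) ^ 2 * (608 + 6 * n ^ 3) := by
    have h3 : 2 * R * (32 * (n:ℝ) ^ 2 * (4 * R ^ 2 * ET n R))
      = 32 * n ^ 2 * (8 * (R ^ 3 * ET n R)) := by ring
    rw [h3]
    have h4 : 8 * (R ^ 3 * ET n R) ≤ 8 * (6 * (n / 2) ^ 3) := by
      apply mul_le_mul_of_nonneg_left _ (by positivity)
      simpa [Nat.factorial] using h1
    have h5 := mul_le_mul_of_nonneg_left h4 (by positivity : (0:ℝ) ≤ 32 * n ^ 2)
    nlinarith
  have h3 : (2 * H * 0 + 8 * (32 * n ^ 2 * 76) + 2 * R * (32 * n ^ 2 * (4 * R ^ 2 * ET n R)))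
        * (2 * R) ^ (n - 1)
      ≤ (2 ^ (n - 1) * (32 * n ^ 2 * (608 + 6 * n ^ 3))) * R ^ (n - 1) := by
    calc _ ≤ (32 * (n:ℝ) ^ 2 * (608 + 6 * n ^ 3)) * (2 * R) ^ (n - 1) :=
          mul_le_mul_of_nonneg_right h2 (by positivity)
      _ = _ := by rw [mul_pow]; ring
  unfold T2 TILT
  linarith

/-- Constant of (2.2). -/
noncomputable def C22 (n : ℕ) : ℝ :=
  832 * 2 ^ (n - 1) + 2 ^ (n - 1) * (32 * n ^ 2 * (608 + 6 * n ^ 3)) + 10

lemma C22_pos : 0 < C22 n := by unfold C22; positivity

/-- (2.2) -/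
theorem PA_le (hn : 1 ≤ n) (hu : Sol u) (hR : 1 ≤ R) (ha : |a| ≤ R) (hH : 0 ≤ H) (hHR : H ≤ R)
    (hF : Flat u p a (2 * R) H) :
    PA u p a R ≤ C22 n * (R ^ (n - 1) + JJ u p a R
      + (1 + H + Real.log R) ^ 2 * TILT u p R) := by
  have hR0 : 0 < R := by linarith
  have h1 := PA_le_T2 (p := p) hu hR0 ha
  have h2 := T2_le (p := p) hn hu hR ha hH hHR hF
  have h3 := JJ_nonneg u p a R
  have h4 := TILT_nonneg u p R
  have hl := Real.log_nonneg hR
  have h5 : (H + 4 * Real.log R) ^ 2 ≤ 16 * (1 + H + Real.log R) ^ 2 := by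
    have : (16:ℝ) * (1 + H + Real.log R) ^ 2 = (4 * (1 + H + Real.log R)) ^ 2 := by ring
    rw [this]
    exact pow_le_pow_left₀ (by positivity) (by linarith) 2
  have h6 := mul_le_mul_of_nonneg_right h5 h4
  have h7 : 0 ≤ 2 ^ (n - 1) * (32 * (n:ℝ) ^ 2 * (608 + 6 * n ^ 3)) := by positivity
  have h8 : (0:ℝ) ≤ 832 * 2 ^ (n - 1) := by positivity
  have h9 : 0 ≤ R ^ (n - 1) := by positivity
  have h10 : 0 ≤ (1 + H + Real.log R) ^ 2 * TILT u p R := by positivity
  unfold C22
  nlinarith [mul_nonneg h7 h9, mul_nonneg h8 h9, mul_nonneg h7 h3, mul_nonneg h8 h3,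
    mul_nonneg h7 h10, mul_nonneg h8 h10]

/-- (2.2'), crude form. -/
theorem PA_le' (hu : Sol u) (hR : 0 < R) (ha : |a| ≤ R) :
    PA u p a R ≤ 832 * 2 ^ (n - 1) * R ^ (n - 1) + 10 * JJ u p a R + 2 * R ^ 2 * TILT u p R := by
  have h1 := PA_le_T2 (p := p) hu hR ha
  have h2 := T2_le_TILT (p := p) hu hR ha
  linarith

end Vale.Agent.P134.H370
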